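import Mathlib

namespace Vale.Agent.P321

open Finset

lemma centralBinom_sq_upper (n : ℕ) : (Nat.centralBinom n)^2 * (2*n+1) ≤ 16^n := by
  induction n with
  | zero => simp
  | succ n ih =>
    have h := Nat.succ_mul_centralBinom_succ n
    have h2 : (n+1)^2 * ((Nat.centralBinom (n+1))^2 * (2*(n+1)+1)) ≤ (n+1)^2 * 16^(n+1) := by
      calc (n+1)^2 * ((Nat.centralBinom (n+1))^2 * (2*(n+1)+1))
          = ((n+1) * Nat.centralBinom (n+1))^2 * (2*n+3) := by ring
        _ = (2*(2*n+1)*Nat.centralBinom n)^2 * (2*n+3) := by rw [h]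
        _ = 4*(2*n+1)*(2*n+3) * ((Nat.centralBinom n)^2 * (2*n+1)) := by ring
        _ ≤ 4*(2*n+1)*(2*n+3) * 16^n := Nat.mul_le_mul_left _ ih
        _ ≤ (n+1)^2 * 16^(n+1) := by
            rw [pow_succ]
            have : 4*(2*n+1)*(2*n+3) ≤ (n+1)^2 * 16 := by nlinarith
            calc 4*(2*n+1)*(2*n+3) * 16^n ≤ ((n+1)^2 * 16) * 16^n := Nat.mul_le_mul_right _ this
              _ = (n+1)^2 * (16^n * 16) := by ring
    exact Nat.le_of_mul_le_mul_left h2 (by positivity)

lemma centralBinom_sq_lower (n : ℕ) (hn : 1 ≤ n) : 16^n ≤ 4*n*(Nat.centralBinom n)^2 := by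
  induction n, hn using Nat.le_induction with
  | base => norm_num [Nat.centralBinom, Nat.choose]
  | succ n hn ih =>
    have h := Nat.succ_mul_centralBinom_succ n
    have h2 : (n+1) * 16^(n+1) ≤ (n+1) * (4*(n+1)*(Nat.centralBinom (n+1))^2) := by
      calc (n+1) * 16^(n+1) = (n+1) * 16 * 16^n := by ring
        _ ≤ (n+1) * 16 * (4*n*(Nat.centralBinom n)^2) := Nat.mul_le_mul_left _ ih
        _ = 16 * (4*n*(n+1)) * (Nat.centralBinom n)^2 := by ring
        _ ≤ 16 * (2*n+1)^2 * (Nat.centralBinom n)^2 := by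
            apply Nat.mul_le_mul_right
            apply Nat.mul_le_mul_left
            nlinarith
        _ = 4 * (2*(2*n+1)*Nat.centralBinom n)^2 := by ring
        _ = 4 * ((n+1) * Nat.centralBinom (n+1))^2 := by rw [h]
        _ = (n+1) * (4*(n+1)*(Nat.centralBinom (n+1))^2) := by ring
    exact Nat.le_of_mul_le_mul_left h2 (by positivity)

lemma middle_sq_le (m : ℕ) : (m.choose (m/2))^2 * (m+1) ≤ 4^m := by
  rcases Nat.even_or_odd' m with ⟨k, rfl | rfl⟩
  · have h := centralBinom_sq_upper k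
    rw [Nat.centralBinom] at h
    have : 2*k/2 = k := by omega
    rw [this]
    calc ((2*k).choose k)^2 * (2*k+1) ≤ 16^k := h
      _ = 4^(2*k) := by rw [pow_mul]; norm_num
  · have h := centralBinom_sq_upper (k+1)
    rw [Nat.centralBinom] at h
    have e : (2*(k+1)).choose (k+1) = 2 * (2*k+1).choose k := by
      have h1 : 2*(k+1) = (2*k+1)+1 := by ring
      rw [h1, Nat.choose_succ_succ]
      have h2 : (2*k+1).choose (k+1) = (2*k+1).choose k := by
        apply Nat.choose_symm_of_eq_add
        omega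
      rw [h2]; ring
    have : (2*k+1)/2 = k := by omega
    rw [this]
    rw [e] at h
    have h3 : 4 * (((2*k+1).choose k)^2 * (2*k+1+1)) ≤ 4 * 4^(2*k+1) := by
      calc 4 * (((2*k+1).choose k)^2 * (2*k+1+1)) ≤ (2*(2*k+1).choose k)^2 * (2*(k+1)+1) := by
            nlinarith [Nat.zero_le (((2*k+1).choose k)^2)]
        _ ≤ 16^(k+1) := h
        _ = 4 * 4^(2*k+1) := by
            have : (16:ℕ) = 4^2 := by norm_num
            rw [this, ← pow_mul]
            ring
    exact Nat.le_of_mul_le_mul_left h3 (by norm_num)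

/-- product form of the hypergeometric symmetry -/
lemma choose_prod_identity (i j u v : ℕ) (h : i + u = j + v) :
    (i+u).choose i * (j+v).choose j * (2*(i+u)).choose (i+u)
      = (2*(i+u)).choose (i+j) * (i+j).choose i * (u+v).choose u := by
  have ac : ∀ s t : ℕ, (s+t).choose s * s.factorial * t.factorial = (s+t).factorial := by
    intro s t
    have := Nat.add_choose_mul_factorial_mul_factorial s t
    rwa [← Nat.choose_symm_add] at this
  have e1 := ac i u
  have e2 := ac j v
  have e3 := ac (i+u) (i+u)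
  have e4 := ac (i+j) (u+v)
  have e5 := ac i j
  have e6 := ac u v
  have s1 : (i+u)+(i+u) = 2*(i+u) := by ring
  have s2 : (i+j)+(u+v) = 2*(i+u) := by omega
  rw [s1] at e3
  rw [s2] at e4
  have pos : 0 < i.factorial * u.factorial * (j.factorial * v.factorial) := by positivity
  apply Nat.eq_of_mul_eq_mul_right pos
  calc (i+u).choose i * (j+v).choose j * (2*(i+u)).choose (i+u) * (i.factorial * u.factorial * (j.factorial * v.factorial))
      = (2*(i+u)).choose (i+u) * ((i+u).choose i * i.factorial * u.factorial) * ((j+v).choose j * j.factorial * v.factorial) := by ring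
    _ = (2*(i+u)).choose (i+u) * (i+u).factorial * (j+v).factorial := by rw [e1, e2]
    _ = (2*(i+u)).factorial := by rw [← h]; exact e3
    _ = (2*(i+u)).choose (i+j) * (i+j).factorial * (u+v).factorial := by rw [e4]
    _ = (2*(i+u)).choose (i+j) * ((i+j).choose i * i.factorial * j.factorial) * ((u+v).choose u * u.factorial * v.factorial) := by rw [e5, e6]
    _ = _ := by ring

/-- `H_i = C(A,i) C(A,K-i)`, bounded by the total. -/
lemma H_bound (A K i : ℕ) (hA : 1 ≤ A) (hi : i ≤ K) (hK : K ≤ 2*A) :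
    (A.choose i * A.choose (K-i))^2 * ((K+1) * (2*A-K+1)) ≤ 4*A*((2*A).choose K)^2 := by
  by_cases h1 : A < i
  · rw [Nat.choose_eq_zero_of_lt h1]; simp
  by_cases h2 : A < K - i
  · rw [Nat.choose_eq_zero_of_lt h2]; simp
  push Not at h1 h2
  obtain ⟨u, hu⟩ := Nat.exists_eq_add_of_le h1
  obtain ⟨v, hv⟩ := Nat.exists_eq_add_of_le h2
  obtain ⟨j, hj⟩ := Nat.exists_eq_add_of_le hi
  have hKi : K - i = j := by omega
  rw [hKi] at hv ⊢
  have key := choose_prod_identity i j u v (by omega)
  rw [← hu, ← hv, ← hj] at key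
  -- key : A.choose i * A.choose j * (2*A).choose A = (2*A).choose K * K.choose i * (u+v).choose u
  have huv : u + v = 2*A - K := by omega
  have c1 : (K.choose i)^2 * (K+1) ≤ 4^K := by
    calc (K.choose i)^2 * (K+1) ≤ (K.choose (K/2))^2 * (K+1) := by
          apply Nat.mul_le_mul_right
          exact Nat.pow_le_pow_left (Nat.choose_le_middle i K) 2
      _ ≤ 4^K := middle_sq_le K
  have c2 : ((u+v).choose u)^2 * (2*A-K+1) ≤ 4^(2*A-K) := by
    rw [← huv]
    calc ((u+v).choose u)^2 * (u+v+1) ≤ ((u+v).choose ((u+v)/2))^2 * (u+v+1) := by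
          apply Nat.mul_le_mul_right
          exact Nat.pow_le_pow_left (Nat.choose_le_middle u (u+v)) 2
      _ ≤ 4^(u+v) := middle_sq_le (u+v)
  have c3 := centralBinom_sq_lower A hA
  rw [Nat.centralBinom] at c3
  have hpos : 0 < ((2*A).choose A)^2 := by
    have := Nat.choose_pos (show A ≤ 2*A by omega)
    positivity
  apply Nat.le_of_mul_le_mul_right _ hpos
  calc (A.choose i * A.choose j)^2 * ((K+1) * (2*A-K+1)) * ((2*A).choose A)^2
      = (A.choose i * A.choose j * (2*A).choose A)^2 * ((K+1) * (2*A-K+1)) := by ring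
    _ = ((2*A).choose K * K.choose i * (u+v).choose u)^2 * ((K+1) * (2*A-K+1)) := by rw [key]
    _ = ((2*A).choose K)^2 * (((K.choose i)^2 * (K+1)) * (((u+v).choose u)^2 * (2*A-K+1))) := by ring
    _ ≤ ((2*A).choose K)^2 * (4^K * 4^(2*A-K)) := by
        apply Nat.mul_le_mul_left
        exact Nat.mul_le_mul c1 c2
    _ = ((2*A).choose K)^2 * 16^A := by
        rw [← pow_add]
        have : K + (2*A-K) = 2*A := by omega
        rw [this, pow_mul]
        norm_num
    _ ≤ ((2*A).choose K)^2 * (4*A*((2*A).choose A)^2) := Nat.mul_le_mul_left _ c3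
    _ = 4*A*((2*A).choose K)^2 * ((2*A).choose A)^2 := by ring

end Vale.Agent.P321
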