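import Mathlib

namespace Vale.Agent.P321

/-- The trace of the string `x` under the survival pattern `k`: the bit in position `i` survives
iff `k i = true`, and the surviving bits are concatenated in their original order. -/
def trace {n : ℕ} (x k : Fin n → Bool) : List Bool :=
  ((List.finRange n).filter (fun i => k i)).map x

/-- The probability of the survival pattern `k` when every bit is deleted independently
with probability `q`. -/
noncomputable def patternProb (q : ℝ) {n : ℕ} (k : Fin n → Bool) : ℝ :=
  ∏ i, (if k i then 1 - q else q)

/-- A (randomized) estimator of a string of length `n` from `m` traces: to each `m`-tuple of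
binary strings it assigns a probability distribution on the strings of length `n`. -/
structure Estimator (m n : ℕ) where
  prob : (Fin m → List Bool) → (Fin n → Bool) → ℝ
  prob_nonneg : ∀ t x, 0 ≤ prob t x
  prob_sum : ∀ t, ∑ x, prob t x = 1

/-- The probability that the estimator outputs `x` when it is given `m` independent traces
of `x` (deletion probability `q`). -/
noncomputable def Estimator.success (q : ℝ) {m n : ℕ} (e : Estimator m n)
    (x : Fin n → Bool) : ℝ :=
  ∑ k : Fin m → Fin n → Bool, (∏ j, patternProb q (k j)) * e.prob (fun j => trace x (k j)) x

/-- The worst-case sample complexity `T_q(n)` of trace reconstruction: the least number `m` of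
traces such that some estimator outputs `x` with probability at least `2/3` for every `x`. -/
noncomputable def sampleComplexity (q : ℝ) (n : ℕ) : ℕ :=
  sInf {m : ℕ | ∃ e : Estimator m n, ∀ x, 2 / 3 ≤ e.success q x}

end Vale.Agent.P321
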