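import Mathlib
import Vale.Agent.P321.Comb

namespace Vale.Agent.P321

open Finset

/-- The difference of two hypergeometric weights. -/
noncomputable def delta (a K i : ℕ) : ℝ :=
  (a.choose i : ℝ) * ((a+1).choose (K-i) : ℝ) - ((a+1).choose i : ℝ) * (a.choose (K-i) : ℝ)

lemma vandermonde_real (m n K : ℕ) :
    ∑ i ∈ range (K+1), (m.choose i : ℝ) * (n.choose (K-i) : ℝ) = ((m+n).choose K : ℝ) := by
  rw [Nat.add_choose_eq, Finset.Nat.sum_antidiagonal_eq_sum_range_succ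
    (fun x y => m.choose x * n.choose y) K]
  push_cast
  rfl

lemma delta_sum_zero (a K : ℕ) : ∑ i ∈ range (K+1), delta a K i = 0 := by
  unfold delta
  rw [Finset.sum_sub_distrib, vandermonde_real, vandermonde_real]
  have : a + (a+1) = (a+1) + a := by ring
  rw [this]; ring

lemma choose_shift_real (a i : ℕ) :
    ((a+1 : ℕ) : ℝ) * (a.choose i : ℝ) = (((a+1 : ℕ) : ℝ) - i) * ((a+1).choose i : ℝ) := by
  by_cases h : i ≤ a + 1
  · have := Nat.choose_mul_succ_eq a i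
    have h2 : ((a.choose i * (a+1) : ℕ) : ℝ) = (((a+1).choose i * (a+1-i) : ℕ) : ℝ) := by
      exact_mod_cast this
    push_cast [Nat.cast_sub h] at h2 ⊢
    linarith
  · push Not at h
    rw [Nat.choose_eq_zero_of_lt (by omega : a < i), Nat.choose_eq_zero_of_lt (by omega : a+1 < i)]
    simp

lemma succ_mul_delta (a K i : ℕ) (hi : i ≤ K) :
    ((a+1 : ℕ) : ℝ) * delta a K i
      = ((a+1).choose i : ℝ) * ((a+1).choose (K-i) : ℝ) * ((K : ℝ) - 2*i) := by
  unfold delta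
  have h1 := choose_shift_real a i
  have h2 := choose_shift_real a (K-i)
  rw [Nat.cast_sub hi] at h2
  calc ((a+1 : ℕ) : ℝ) * ((a.choose i : ℝ) * ((a+1).choose (K-i) : ℝ) - ((a+1).choose i : ℝ) * (a.choose (K-i) : ℝ))
      = (((a+1 : ℕ) : ℝ) * (a.choose i : ℝ)) * ((a+1).choose (K-i) : ℝ) - ((a+1).choose i : ℝ) * (((a+1 : ℕ) : ℝ) * (a.choose (K-i) : ℝ)) := by ring
    _ = _ := by rw [h1, h2]; ring

lemma sum_first_moment (a K : ℕ) :
    ∑ i ∈ range (K+2), (i : ℝ) * ((a.choose i : ℝ) * ((a+1).choose (K+1-i) : ℝ))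
      = (a : ℝ) * ((2*a).choose K : ℝ) := by
  rw [Finset.sum_range_succ']
  simp only [Nat.cast_zero, zero_mul, add_zero]
  cases a with
  | zero => simp
  | succ b =>
    have : ∀ i ∈ range (K+1), (((i+1 : ℕ)) : ℝ) * (((b+1).choose (i+1) : ℝ) * ((b+1+1).choose (K+1-(i+1)) : ℝ))
        = ((b+1 : ℕ) : ℝ) * ((b.choose i : ℝ) * ((b+1+1).choose (K-i) : ℝ)) := by
      intro i _
      have h := Nat.add_one_mul_choose_eq b i
      have h2 : (((b+1) * b.choose i : ℕ) : ℝ) = (((b+1).choose (i+1) * (i+1) : ℕ) : ℝ) := by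
        exact_mod_cast h
      push_cast at h2
      have h3 : K+1-(i+1) = K-i := by omega
      rw [h3]
      push_cast
      calc ((i:ℝ)+1) * (((b+1).choose (i+1) : ℝ) * ((b+1+1).choose (K-i) : ℝ))
          = (((b+1).choose (i+1) : ℝ) * ((i:ℝ)+1)) * ((b+1+1).choose (K-i) : ℝ) := by ring
        _ = (((b:ℝ)+1) * (b.choose i : ℝ)) * ((b+1+1).choose (K-i) : ℝ) := by rw [h2]
        _ = _ := by ring
    rw [Finset.sum_congr rfl this, ← Finset.mul_sum, vandermonde_real]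
    have : b + (b+1+1) = 2*(b+1) := by ring
    rw [this]

lemma sum_weighted (a K : ℕ) :
    ∑ i ∈ range (K+2), (((K+1 : ℕ) : ℝ) - 2*i) * ((a.choose i : ℝ) * ((a+1).choose (K+1-i) : ℝ))
      = ((2*a).choose K : ℝ) := by
  have h1 := sum_first_moment a K
  have h2 := vandermonde_real a (a+1) (K+1)
  have h3 : ((K+1 : ℕ) : ℝ) * ((2*a+1).choose (K+1) : ℝ) = ((2*a+1 : ℕ) : ℝ) * ((2*a).choose K : ℝ) := by
    have := Nat.add_one_mul_choose_eq (2*a) K
    have h : (((2*a+1) * (2*a).choose K : ℕ) : ℝ) = (((2*a+1).choose (K+1) * (K+1) : ℕ) : ℝ) := by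
      exact_mod_cast this
    push_cast at h ⊢
    linarith
  calc ∑ i ∈ range (K+2), (((K+1 : ℕ) : ℝ) - 2*i) * ((a.choose i : ℝ) * ((a+1).choose (K+1-i) : ℝ))
      = ∑ i ∈ range (K+2), (((K+1 : ℕ) : ℝ) * ((a.choose i : ℝ) * ((a+1).choose (K+1-i) : ℝ)) - 2 * ((i:ℝ) * ((a.choose i : ℝ) * ((a+1).choose (K+1-i) : ℝ)))) := by
        apply Finset.sum_congr rfl; intros; ring
    _ = ((K+1 : ℕ) : ℝ) * ((a+(a+1)).choose (K+1) : ℝ) - 2 * ((a:ℝ) * ((2*a).choose K : ℝ)) := by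
        rw [Finset.sum_sub_distrib, ← Finset.mul_sum, ← Finset.mul_sum, h1, h2]
    _ = _ := by
        have : a + (a+1) = 2*a+1 := by ring
        rw [this, h3]
        push_cast
        ring

lemma sum_weighted_reflect (a K : ℕ) :
    ∑ i ∈ range (K+2), (((K+1 : ℕ) : ℝ) - 2*i) * (((a+1).choose i : ℝ) * (a.choose (K+1-i) : ℝ))
      = -((2*a).choose K : ℝ) := by
  rw [← sum_weighted a K, ← Finset.sum_range_reflect, ← Finset.sum_neg_distrib]
  apply Finset.sum_congr rfl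
  intro i hi
  rw [Finset.mem_range] at hi
  have e1 : K + 2 - 1 - i = K + 1 - i := by omega
  have e2 : K + 1 - (K + 1 - i) = i := by omega
  rw [e1, e2]
  have e3 : ((K+1-i : ℕ) : ℝ) = ((K+1 : ℕ) : ℝ) - i := by
    rw [Nat.cast_sub (by omega)]
  rw [e3]
  ring

lemma sum_delta_weighted (a K : ℕ) :
    ∑ i ∈ range (K+2), (((K+1 : ℕ) : ℝ) - 2*i) * delta a (K+1) i = 2 * ((2*a).choose K : ℝ) := by
  unfold delta
  simp only [mul_sub]
  rw [Finset.sum_sub_distrib, sum_weighted, sum_weighted_reflect]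
  ring

/-- sum of squares of the differences -/
noncomputable def VV (a K : ℕ) : ℝ := ∑ i ∈ range (K+1), (delta a K i)^2

lemma VV_zero (a : ℕ) : VV a 0 = 0 := by
  simp [VV, delta]

lemma VV_bound_aux (a K : ℕ) (B : ℝ)
    (hB : ∀ i ≤ K+1, ((a+1).choose i : ℝ) * ((a+1).choose (K+1-i) : ℝ) ≤ B) :
    ((a+1 : ℕ) : ℝ) * VV a (K+1) ≤ 2 * B * ((2*a).choose K : ℝ) := by
  have hpos : (0:ℝ) < ((a+1 : ℕ) : ℝ) := by positivity
  have key : ∀ i ∈ range (K+2), ((a+1 : ℕ) : ℝ) * (delta a (K+1) i)^2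
      ≤ B * ((((K+1 : ℕ) : ℝ) - 2*i) * delta a (K+1) i) := by
    intro i hi
    rw [Finset.mem_range] at hi
    have hd := succ_mul_delta a (K+1) i (by omega)
    set H := ((a+1).choose i : ℝ) * ((a+1).choose (K+1-i) : ℝ) with hH
    set t := (((K+1 : ℕ) : ℝ) - 2*i) with ht
    have hHB : H ≤ B := hB i (by omega)
    have hH0 : 0 ≤ H := by positivity
    have hdel : delta a (K+1) i = H * t / ((a+1 : ℕ) : ℝ) := by
      field_simp
      linarith
    rw [hdel]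
    have : ((a+1 : ℕ) : ℝ) * (H * t / ((a+1 : ℕ) : ℝ))^2 = H * (H * t^2 / ((a+1 : ℕ) : ℝ)) := by
      field_simp
    rw [this]
    have h2 : B * (t * (H * t / ((a+1 : ℕ) : ℝ))) = B * (H * t^2 / ((a+1 : ℕ) : ℝ)) := by
      ring
    rw [h2]
    apply mul_le_mul_of_nonneg_right hHB
    positivity
  unfold VV
  rw [Finset.mul_sum]
  calc ∑ i ∈ range (K+1+1), ((a+1 : ℕ) : ℝ) * (delta a (K+1) i)^2
      ≤ ∑ i ∈ range (K+2), B * ((((K+1 : ℕ) : ℝ) - 2*i) * delta a (K+1) i) := Finset.sum_le_sum key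
    _ = B * (2 * ((2*a).choose K : ℝ)) := by rw [← Finset.mul_sum, sum_delta_weighted]
    _ = _ := by ring

end Vale.Agent.P321
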