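import Mathlib
import Vale.Agent.P321.Delta

namespace Vale.Agent.P321

open Finset

lemma real_combine (A m z s c0 c1 c2' c5 V : ℝ) (hz1 : 1 ≤ z) (hm2 : 2 ≤ m)
    (hsum : m + z = 2*A) (hA0 : 0 < A) (hs0 : 0 < s) (hs2 : s^2 = m*(z+2)) (hsle : s ≤ A + 1)
    (hc1 : 0 ≤ c1) (hc5 : 0 ≤ c5)
    (e_c0 : c0 = c1 * (m*(m-1)) / (z*(2*A-1)))
    (e_c2' : c2' = c5 * (m*(z+2)*(z+3)) / ((2*A+1)*(2*A+2)*(2*A+3)))
    (main : A * V ≤ 2 * (c2' * (2*√A) / s) * c0) :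
    V ≤ 16 / (A * √A) * (c1 * c5) := by
  have hsA : √A * √A = A := Real.mul_self_sqrt hA0.le
  have hsA0 : 0 < √A := Real.sqrt_pos.mpr hA0
  set w := √A with hw
  have h1 : (2*A+1) ≠ 0 := by linarith
  have h2 : (2*A+2) ≠ 0 := by linarith
  have h3 : (2*A+3) ≠ 0 := by linarith
  have h21' : 0 < 2*A-1 := by linarith
  have h21 : (2*A-1) ≠ 0 := h21'.ne'
  have hz0 : z ≠ 0 := by linarith
  have hA' : A ≠ 0 := hA0.ne'
  have hs' : s ≠ 0 := hs0.ne'
  have hsA' : w ≠ 0 := hsA0.ne'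
  have e_c2'' : c2' = c5 * (s^2*(z+3)) / ((2*A+1)*(2*A+2)*(2*A+3)) := by
    rw [e_c2', hs2]
  have hVV : V ≤ (4 / w) * (c1 * c5) * (s * (z+3) * (m*(m-1)) / (z*(2*A-1)*((2*A+1)*(2*A+2)*(2*A+3)))) := by
    have h4 : V ≤ 2 * (c2' * (2*w) / s) * c0 / A := by
      rw [le_div_iff₀ hA0]; linarith
    refine h4.trans (le_of_eq ?_)
    have e5 : 2 * (c2' * (2*w) / s) * c0 / A = 4 * w * (c2' / s) * c0 / A := by ring
    rw [e5]
    have e6 : c2' / s = c5 * (s*(z+3)) / ((2*A+1)*(2*A+2)*(2*A+3)) := by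
      rw [e_c2'', div_eq_iff hs']
      ring
    rw [e6, e_c0]
    have e8 : 4 * w / A = 4 / w := by
      rw [div_eq_div_iff hA' hsA', ← hsA]; ring
    have e9 : 4 * w * (c5 * (s*(z+3)) / ((2*A+1)*(2*A+2)*(2*A+3))) * (c1 * (m*(m-1)) / (z*(2*A-1))) / A
       = (4 * w / A) * ((c1 * c5) * (s * (z+3) * (m*(m-1)) / (z*(2*A-1)*((2*A+1)*(2*A+2)*(2*A+3))))) := by
      have : c5 * (s*(z+3)) / ((2*A+1)*(2*A+2)*(2*A+3)) * (c1 * (m*(m-1)) / (z*(2*A-1)))
        = (c1 * c5) * (s * (z+3) * (m*(m-1)) / (z*(2*A-1)*((2*A+1)*(2*A+2)*(2*A+3)))) := by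
        rw [div_mul_div_comm, ← mul_div_assoc]
        congr 1 <;> ring
      calc 4 * w * (c5 * (s*(z+3)) / ((2*A+1)*(2*A+2)*(2*A+3))) * (c1 * (m*(m-1)) / (z*(2*A-1))) / A
          = (4 * w / A) * (c5 * (s*(z+3)) / ((2*A+1)*(2*A+2)*(2*A+3)) * (c1 * (m*(m-1)) / (z*(2*A-1)))) := by
            ring
        _ = _ := by rw [this]
    rw [e9, e8]
    ring
  refine hVV.trans ?_
  have hfac : s * (z+3) * (m*(m-1)) / (z*(2*A-1)*((2*A+1)*(2*A+2)*(2*A+3))) ≤ 4 / A := by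
    rw [div_le_div_iff₀ (by positivity) hA0]
    have hm1 : m ≤ 2*A-1 := by linarith
    have hb1 : s * (z+3) ≤ (A+1)*(4*z) := by
      apply mul_le_mul hsle (by linarith) (by linarith) (by linarith)
    have hb2 : m*(m-1) ≤ (2*A-1)*(2*A) := by nlinarith
    have hb3 : s * (z+3) * (m*(m-1)) ≤ ((A+1)*(4*z)) * ((2*A-1)*(2*A)) := by
      apply mul_le_mul hb1 hb2 (by nlinarith) (by positivity)
    calc s * (z+3) * (m*(m-1)) * A ≤ ((A+1)*(4*z)) * ((2*A-1)*(2*A)) * A := by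
          apply mul_le_mul_of_nonneg_right hb3 hA0.le
      _ = 4 * (z*(2*A-1)) * ((A+1)*(2*A)*A) := by ring
      _ ≤ 4 * (z*(2*A-1)) * ((2*A+1)*(2*A+2)*(2*A+3)) := by
          apply mul_le_mul_of_nonneg_left _ (by positivity)
          nlinarith [mul_pos hA0 hA0, mul_pos (mul_pos hA0 hA0) hA0]
      _ = 4 * (z*(2*A-1)*((2*A+1)*(2*A+2)*(2*A+3))) := by ring
  calc (4 / w) * (c1 * c5) * (s * (z+3) * (m*(m-1)) / (z*(2*A-1)*((2*A+1)*(2*A+2)*(2*A+3))))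
      ≤ (4 / w) * (c1 * c5) * (4 / A) := by
        apply mul_le_mul_of_nonneg_left hfac (by positivity)
    _ = 16 / (A * w) * (c1 * c5) := by
        rw [div_mul_eq_mul_div, div_mul_div_comm, div_mul_eq_mul_div]
        congr 1 <;> ring

lemma VV_le (a K : ℕ) (hK : K + 2 ≤ 2*a+1) :
    VV a (K+1) ≤ 16 / (((a+1 : ℕ) : ℝ) * √((a+1 : ℕ) : ℝ)) *
      (((2*a+1).choose (K+2) : ℝ) * ((2*a+5).choose (K+2) : ℝ)) := by
  obtain ⟨Z, hZ⟩ : ∃ Z, 2*a = K + Z := Nat.exists_eq_add_of_le (by omega)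
  have hZ1 : 1 ≤ Z := by omega
  -- real variables
  set A : ℝ := ((a+1 : ℕ) : ℝ) with hA
  set m : ℝ := ((K+2 : ℕ) : ℝ) with hm
  set z : ℝ := (Z : ℝ) with hz
  have hz1 : 1 ≤ z := by rw [hz]; exact_mod_cast hZ1
  have hm2 : 2 ≤ m := by rw [hm]; push_cast; linarith [Nat.cast_nonneg (α := ℝ) K]
  have haR : (a:ℝ) = A - 1 := by rw [hA]; push_cast; ring
  have hKR : (K:ℝ) = m - 2 := by rw [hm]; push_cast; ring
  have hsum : m + z = 2*A := by
    have : ((2*a : ℕ) : ℝ) = ((K + Z : ℕ) : ℝ) := by exact_mod_cast hZ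
    push_cast at this
    rw [haR, hKR] at this
    rw [hz]; linarith
  have hA0 : 0 < A := by linarith
  set s : ℝ := √(m * (z+2)) with hs
  have hs0 : 0 < s := Real.sqrt_pos.mpr (by positivity)
  have hs2 : s^2 = m*(z+2) := Real.sq_sqrt (by positivity)
  have hsle : s ≤ A + 1 := by
    apply Real.sqrt_le_iff.mpr
    refine ⟨by linarith, ?_⟩
    have : z + 2 = 2*A + 2 - m := by linarith
    rw [this]
    nlinarith [sq_nonneg (m - (A+1))]
  -- binomial relations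
  have R1 : ((2*a).choose K : ℝ) * (2*A-1) = ((2*a+1).choose (K+1) : ℝ) * (m-1) := by
    have := Nat.add_one_mul_choose_eq (2*a) K
    have h : (((2*a+1) * (2*a).choose K : ℕ) : ℝ) = (((2*a+1).choose (K+1) * (K+1) : ℕ) : ℝ) := by
      exact_mod_cast this
    push_cast at h
    rw [haR, hKR] at h
    linarith
  have R1' : ((2*a+1).choose (K+2) : ℝ) * m = ((2*a+1).choose (K+1) : ℝ) * z := by
    have := Nat.choose_succ_right_eq (2*a+1) (K+1)
    have e : 2*a+1-(K+1) = Z := by omega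
    rw [e] at this
    have h : (((2*a+1).choose (K+2) * (K+2) : ℕ) : ℝ) = (((2*a+1).choose (K+1) * Z : ℕ) : ℝ) := by
      exact_mod_cast this
    rw [Nat.cast_mul, Nat.cast_mul] at h
    exact h
  have R2 : ((2*(a+1)).choose (K+2) : ℝ) * m = ((2*(a+1)).choose (K+1) : ℝ) * (z+1) := by
    have := Nat.choose_succ_right_eq (2*(a+1)) (K+1)
    have e : 2*(a+1)-(K+1) = Z+1 := by omega
    rw [e] at this
    have h : (((2*(a+1)).choose (K+2) * (K+2) : ℕ) : ℝ) = (((2*(a+1)).choose (K+1) * (Z+1) : ℕ) : ℝ) := by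
      exact_mod_cast this
    rw [Nat.cast_mul, Nat.cast_mul] at h
    push_cast at h
    rw [hm]; push_cast
    linarith
  have R3 : ((2*(a+1)).choose (K+2) : ℝ) * (2*A+1) = ((2*a+3).choose (K+2) : ℝ) * (z+1) := by
    have := Nat.choose_mul_succ_eq (2*(a+1)) (K+2)
    have e : 2*(a+1)+1-(K+2) = Z+1 := by omega
    rw [e] at this
    have e2 : 2*(a+1)+1 = 2*a+3 := by ring
    rw [e2] at this
    have h : (((2*(a+1)).choose (K+2) * (2*a+3) : ℕ) : ℝ) = (((2*a+3).choose (K+2) * (Z+1) : ℕ) : ℝ) := by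
      exact_mod_cast this
    rw [Nat.cast_mul, Nat.cast_mul] at h
    push_cast at h
    rw [haR] at h
    push_cast
    linarith
  have R4 : ((2*a+3).choose (K+2) : ℝ) * (2*A+2) = ((2*a+4).choose (K+2) : ℝ) * (z+2) := by
    have := Nat.choose_mul_succ_eq (2*a+3) (K+2)
    have e : 2*a+3+1-(K+2) = Z+2 := by omega
    rw [e] at this
    have h : (((2*a+3).choose (K+2) * (2*a+3+1) : ℕ) : ℝ) = (((2*a+4).choose (K+2) * (Z+2) : ℕ) : ℝ) := by
      exact_mod_cast this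
    rw [Nat.cast_mul, Nat.cast_mul] at h
    push_cast at h
    rw [haR] at h
    linarith
  have R5 : ((2*a+4).choose (K+2) : ℝ) * (2*A+3) = ((2*a+5).choose (K+2) : ℝ) * (z+3) := by
    have := Nat.choose_mul_succ_eq (2*a+4) (K+2)
    have e : 2*a+4+1-(K+2) = Z+3 := by omega
    rw [e] at this
    have h : (((2*a+4).choose (K+2) * (2*a+4+1) : ℕ) : ℝ) = (((2*a+5).choose (K+2) * (Z+3) : ℕ) : ℝ) := by
      exact_mod_cast this
    rw [Nat.cast_mul, Nat.cast_mul] at h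
    push_cast at h
    rw [haR] at h
    linarith
  set c0 : ℝ := ((2*a).choose K : ℝ)
  set c1' : ℝ := ((2*a+1).choose (K+1) : ℝ)
  set c1 : ℝ := ((2*a+1).choose (K+2) : ℝ)
  set c2' : ℝ := ((2*(a+1)).choose (K+1) : ℝ)
  set c2 : ℝ := ((2*(a+1)).choose (K+2) : ℝ)
  set c3 : ℝ := ((2*a+3).choose (K+2) : ℝ)
  set c4 : ℝ := ((2*a+4).choose (K+2) : ℝ)
  set c5 : ℝ := ((2*a+5).choose (K+2) : ℝ)
  have hc1 : 0 ≤ c1 := Nat.cast_nonneg _
  have hc5 : 0 ≤ c5 := Nat.cast_nonneg _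
  -- the bound B
  have hB : ∀ i ≤ K+1, ((a+1).choose i : ℝ) * ((a+1).choose (K+1-i) : ℝ) ≤ c2' * (2*√A) / s := by
    intro i hi
    have h := H_bound (a+1) (K+1) i (by omega) hi (by omega)
    have e : 2*(a+1)-(K+1)+1 = Z+2 := by omega
    rw [e] at h
    have hR : (((((a+1).choose i * (a+1).choose (K+1-i))^2 * ((K+1+1) * (Z+2)) : ℕ)) : ℝ)
        ≤ ((4*(a+1)*((2*(a+1)).choose (K+1))^2 : ℕ) : ℝ) := by exact_mod_cast h
    push_cast at hR
    rw [le_div_iff₀ hs0]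
    apply le_of_sq_le_sq _ (by positivity)
    · rw [mul_pow, hs2, mul_pow c2', mul_pow 2, Real.sq_sqrt hA0.le]
      have e1 : ((K:ℝ)+1+1) = m := by rw [hm]; push_cast; ring
      have e2 : ((a:ℝ)+1) = A := by rw [hA]; push_cast; ring
      rw [e1, e2] at hR
      calc (((a+1).choose i : ℝ) * ((a+1).choose (K+1-i) : ℝ))^2 * (m*(z+2)) ≤ 4*A*c2'^2 := hR
        _ = c2'^2 * (2^2*A) := by ring
  have main := VV_bound_aux a K _ hB
  have e_c0 : c0 = c1 * (m*(m-1)) / (z*(2*A-1)) := by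
    have h21 : (2*A-1) ≠ 0 := by linarith
    have hz0 : z ≠ 0 := by linarith
    field_simp
    have hh : c0 * (2*A-1) * z = c1 * m * (m-1) := by
      rw [R1, R1']; ring
    linarith
  have e_c2' : c2' = c5 * (m*(z+2)*(z+3)) / ((2*A+1)*(2*A+2)*(2*A+3)) := by
    have h1 : (2*A+1) ≠ 0 := by linarith
    have h2 : (2*A+2) ≠ 0 := by linarith
    have h3 : (2*A+3) ≠ 0 := by linarith
    have hz1' : (z+1) ≠ 0 := by linarith
    have hh : (c2' * ((2*A+1)*(2*A+2)*(2*A+3))) * (z+1) = (c5 * (m*(z+2)*(z+3))) * (z+1) := by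
      calc (c2' * ((2*A+1)*(2*A+2)*(2*A+3))) * (z+1)
          = (c2'*(z+1)) * ((2*A+1)*(2*A+2)*(2*A+3)) := by ring
        _ = (c2*m) * ((2*A+1)*(2*A+2)*(2*A+3)) := by rw [R2]
        _ = (c2*(2*A+1)) * m * ((2*A+2)*(2*A+3)) := by ring
        _ = (c3*(z+1)) * m * ((2*A+2)*(2*A+3)) := by rw [R3]
        _ = (c3*(2*A+2)) * (z+1) * m * (2*A+3) := by ring
        _ = (c4*(z+2)) * (z+1) * m * (2*A+3) := by rw [R4]
        _ = (c4*(2*A+3)) * (z+2) * (z+1) * m := by ring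
        _ = (c5*(z+3)) * (z+2) * (z+1) * m := by rw [R5]
        _ = _ := by ring
    have hh2 := mul_right_cancel₀ hz1' hh
    field_simp
    linarith
  exact real_combine A m z s c0 c1 c2' c5 _ hz1 hm2 hsum hA0 hs0 hs2 hsle hc1 hc5 e_c0 e_c2' main

end Vale.Agent.P321
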