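import Mathlib
import Vale.Agent.P321.VBound

namespace Vale.Agent.P321

open Finset

/-- Letters of the finer observation: a single surviving `0`, a single surviving `1`, and both
bits of a block `01` surviving. -/
inductive Letter
  | a | b | c
  deriving DecidableEq

instance : Fintype Letter := ⟨{Letter.a, Letter.b, Letter.c}, fun x => by cases x <;> simp⟩

/-- weights of the letters -/
noncomputable def wt (q : ℝ) : Letter → ℝ
  | .a => (1-q)*q
  | .b => (1-q)*q
  | .c => (1-q)^2

lemma wt_sum (q : ℝ) : wt q .a + wt q .b + wt q .c = 1 - q^2 := by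
  simp only [wt]; ring

/-- the sum of a function over all words of length `M` -/
noncomputable def S : ℕ → (List Letter → ℝ) → ℝ
  | 0, G => G []
  | M+1, G => S M (fun w => G (.a::w)) + S M (fun w => G (.b::w)) + S M (fun w => G (.c::w))

lemma S_add (M : ℕ) (G H : List Letter → ℝ) : S M (fun w => G w + H w) = S M G + S M H := by
  induction M generalizing G H with
  | zero => simp [S]
  | succ M ih => simp only [S, ih]; ring

lemma S_mul (M : ℕ) (x : ℝ) (G : List Letter → ℝ) : S M (fun w => x * G w) = x * S M G := by
  induction M generalizing G with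
  | zero => simp [S]
  | succ M ih => simp only [S, ih]; ring

lemma S_congr (M : ℕ) (G H : List Letter → ℝ) (h : ∀ w, w.length = M → G w = H w) :
    S M G = S M H := by
  induction M generalizing G H with
  | zero => simp [S, h]
  | succ M ih =>
    simp only [S]
    rw [ih (fun w => G (.a::w)) (fun w => H (.a::w)) (fun w hw => h _ (by simp [hw])),
      ih (fun w => G (.b::w)) (fun w => H (.b::w)) (fun w hw => h _ (by simp [hw])),
      ih (fun w => G (.c::w)) (fun w => H (.c::w)) (fun w hw => h _ (by simp [hw]))]

lemma S_mono (M : ℕ) (G H : List Letter → ℝ) (h : ∀ w, w.length = M → G w ≤ H w) :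
    S M G ≤ S M H := by
  induction M generalizing G H with
  | zero => simp [S, h]
  | succ M ih =>
    simp only [S]
    have h1 := ih (fun w => G (.a::w)) (fun w => H (.a::w)) (fun w hw => h _ (by simp [hw]))
    have h2 := ih (fun w => G (.b::w)) (fun w => H (.b::w)) (fun w hw => h _ (by simp [hw]))
    have h3 := ih (fun w => G (.c::w)) (fun w => H (.c::w)) (fun w hw => h _ (by simp [hw]))
    linarith

lemma S_zero (M : ℕ) : S M (fun _ => 0) = 0 := by
  induction M with
  | zero => simp [S]
  | succ M ih => simp [S, ih]

lemma S_eq_sum (M : ℕ) (G : List Letter → ℝ) :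
    S M G = ∑ ω : Fin M → Letter, G (List.ofFn ω) := by
  induction M generalizing G with
  | zero => simp [S]
  | succ M ih =>
    simp only [S, ih]
    rw [← (Fin.consEquiv (fun _ : Fin (M+1) => Letter)).sum_comp, Fintype.sum_prod_type]
    have huniv : (Finset.univ : Finset Letter) = {Letter.a, Letter.b, Letter.c} := by rfl
    rw [huniv]
    rw [Finset.sum_insert (by decide), Finset.sum_insert (by decide), Finset.sum_singleton]
    simp [Fin.consEquiv, List.ofFn_succ]
    ring

/-- product weight of a word -/
noncomputable def wl (q : ℝ) : List Letter → ℝ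
  | [] => 1
  | l::w => wt q l * wl q w

/-- `∑ᵢ cᵢ 1[wᵢ = a]` -/
noncomputable def lin : (ℕ → ℝ) → List Letter → ℝ
  | _, [] => 0
  | c, l::w => (if l = Letter.a then c 0 else 0) + lin (fun i => c (i+1)) w

lemma lin_congr (c d : ℕ → ℝ) (w : List Letter) (h : ∀ i < w.length, c i = d i) :
    lin c w = lin d w := by
  induction w generalizing c d with
  | nil => rfl
  | cons l w ih =>
    simp only [lin]
    rw [h 0 (by simp), ih (fun i => c (i+1)) (fun i => d (i+1)) (fun i hi => h _ (by simpa using hi))]

lemma lin_add (c d : ℕ → ℝ) (w : List Letter) :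
    lin (fun i => c i + d i) w = lin c w + lin d w := by
  induction w generalizing c d with
  | nil => simp [lin]
  | cons l w ih =>
    simp only [lin, ih]
    split_ifs <;> ring

lemma lin_sub (c d : ℕ → ℝ) (w : List Letter) :
    lin (fun i => c i - d i) w = lin c w - lin d w := by
  induction w generalizing c d with
  | nil => simp [lin]
  | cons l w ih =>
    simp only [lin, ih]
    split_ifs <;> ring

lemma lin_zero (w : List Letter) : lin (fun _ => 0) w = 0 := by
  induction w with
  | nil => rfl
  | cons l w ih => simp [lin, ih]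

lemma wl_nonneg (q : ℝ) (h0 : 0 ≤ q) (h1 : q ≤ 1) (w : List Letter) : 0 ≤ wl q w := by
  induction w with
  | nil => simp [wl]
  | cons l w ih =>
    simp only [wl]
    apply mul_nonneg _ ih
    cases l <;> simp only [wt] <;> nlinarith

lemma wl_pos (q : ℝ) (h0 : 0 < q) (h1 : q < 1) (w : List Letter) : 0 < wl q w := by
  induction w with
  | nil => simp [wl]
  | cons l w ih =>
    simp only [wl]
    apply mul_pos _ ih
    have : 0 < 1 - q := by linarith
    cases l <;> simp only [wt] <;> positivity

lemma S_wl (q : ℝ) (M : ℕ) : S M (wl q) = (1-q^2)^M := by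
  induction M with
  | zero => simp [S, wl]
  | succ M ih =>
    simp only [S, wl, S_mul]
    rw [ih, pow_succ]
    linear_combination (1-q^2)^M * wt_sum q

lemma S_wl_lin (q : ℝ) (M : ℕ) (c : ℕ → ℝ) :
    (1-q^2) * S M (fun w => wl q w * lin c w) = (1-q^2)^M * (wt q .a * ∑ i ∈ range M, c i) := by
  induction M generalizing c with
  | zero => simp [S, wl, lin]
  | succ M ih =>
    have hl : ∀ l : Letter, S M (fun w => wl q (l::w) * lin c (l::w))
        = wt q l * ((if l = Letter.a then c 0 else 0) * (1-q^2)^M)
          + wt q l * S M (fun w => wl q w * lin (fun i => c (i+1)) w) := by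
      intro l
      rw [← S_wl q M, ← S_mul, ← S_mul, ← S_mul, ← S_add]
      apply S_congr
      intro w _
      simp only [wl, lin]; ring
    simp only [S]
    rw [hl, hl, hl, Finset.sum_range_succ']
    simp only [if_true, reduceCtorEq, if_false]
    have hih := ih (fun i => c (i+1))
    have hs := wt_sum q
    rw [pow_succ]
    linear_combination (1-q^2) * hih + (1-q^2) * (S M fun w => wl q w * lin (fun i => c (i+1)) w) * hs

lemma S_wl_lin_sq (q : ℝ) (M : ℕ) (c : ℕ → ℝ) :
    (1-q^2)^2 * S M (fun w => wl q w * (lin c w)^2)
      = (1-q^2)^M * ((wt q .a * (1-q^2) - (wt q .a)^2) * ∑ i ∈ range M, (c i)^2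
          + (wt q .a)^2 * (∑ i ∈ range M, c i)^2) := by
  induction M generalizing c with
  | zero => simp [S, wl, lin]
  | succ M ih =>
    have hl : ∀ l : Letter, S M (fun w => wl q (l::w) * (lin c (l::w))^2)
        = wt q l * ((if l = Letter.a then c 0 else 0)^2 * (1-q^2)^M)
          + wt q l * (2 * (if l = Letter.a then c 0 else 0) * S M (fun w => wl q w * lin (fun i => c (i+1)) w))
          + wt q l * S M (fun w => wl q w * (lin (fun i => c (i+1)) w)^2) := by
      intro l
      rw [← S_wl q M, ← S_mul, ← S_mul, ← S_mul, ← S_mul, ← S_mul, ← S_add, ← S_add]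
      apply S_congr
      intro w _
      simp only [wl, lin]; ring
    simp only [S]
    rw [hl, hl, hl, Finset.sum_range_succ', Finset.sum_range_succ']
    simp only [if_true, reduceCtorEq, if_false]
    have hih := ih (fun i => c (i+1))
    have h1 := S_wl_lin q M (fun i => c (i+1))
    have hs := wt_sum q
    rw [pow_succ]
    linear_combination (1-q^2) * hih + 2 * c 0 * wt q .a * (1-q^2) * h1
      + (1-q^2)^2 * (S M fun w => wl q w * (lin (fun i => c (i+1)) w)^2) * hs

end Vale.Agent.P321
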