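import Mathlib
import Vale.Agent.P321.Words

namespace Vale.Agent.P321

open Finset

/-- prepend the output of a block `01` -/
noncomputable def lawN (q : ℝ) (μ : List Letter → ℝ) : List Letter → ℝ
  | [] => q^2 * μ []
  | l::w => q^2 * μ (l::w) + wt q l * μ w

/-- insertion of the letter `a` -/
noncomputable def insA (μ : List Letter → ℝ) : List Letter → ℝ
  | [] => 0
  | l::w => if l = Letter.a then μ w else 0

/-- prepend the output of a single `0` -/
noncomputable def lawX (q : ℝ) (μ : List Letter → ℝ) : List Letter → ℝ :=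
  fun w => q * μ w + (1-q) * insA μ w

/-- point mass at the empty word -/
noncomputable def dirac : List Letter → ℝ
  | [] => 1
  | _::_ => 0

lemma lawN_lin (q x y : ℝ) (μ ν : List Letter → ℝ) :
    lawN q (fun w => x * μ w + y * ν w) = fun w => x * lawN q μ w + y * lawN q ν w := by
  funext w
  cases w <;> simp only [lawN] <;> ring

lemma lawN_iter_lin (q x y : ℝ) (μ ν : List Letter → ℝ) (k : ℕ) :
    (lawN q)^[k] (fun w => x * μ w + y * ν w)
      = fun w => x * (lawN q)^[k] μ w + y * (lawN q)^[k] ν w := by
  induction k generalizing μ ν with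
  | zero => rfl
  | succ k ih =>
    rw [Function.iterate_succ_apply, lawN_lin, ih]
    rfl

noncomputable def NN (q : ℝ) (k : ℕ) : List Letter → ℝ := (lawN q)^[k] dirac

lemma NN_succ (q : ℝ) (k : ℕ) : NN q (k+1) = lawN q (NN q k) := by
  unfold NN
  rw [Function.iterate_succ_apply']

lemma NN_formula (q : ℝ) (k : ℕ) (w : List Letter) :
    NN q k w = (k.choose w.length : ℝ) * q^(2*(k - w.length)) * wl q w := by
  induction k generalizing w with
  | zero =>
    cases w with
    | nil => simp [NN, dirac, wl]
    | cons l w => simp [NN, dirac]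
  | succ k ih =>
    rw [NN_succ]
    cases w with
    | nil =>
      simp only [lawN, ih, List.length_nil, Nat.choose_zero_right, Nat.sub_zero, wl]
      ring
    | cons l w =>
      simp only [lawN, ih, List.length_cons, wl]
      rw [Nat.choose_succ_succ]
      push_cast
      by_cases h : w.length + 1 ≤ k
      · have e1 : 2*(k - w.length) = 2*(k-(w.length+1)) + 2 := by omega
        rw [e1, pow_add]
        simp only [Nat.succ_eq_add_one]
        ring
      · have h0 : k.choose (w.length+1) = 0 := Nat.choose_eq_zero_of_lt (by omega)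
        rw [h0]
        push_cast
        ring

/-- the coefficient function -/
noncomputable def cf (k k' M i : ℕ) : ℝ := (k.choose i : ℝ) * (k'.choose (M-1-i) : ℝ)

noncomputable def Phi (q : ℝ) (k k' : ℕ) : List Letter → ℝ := (lawN q)^[k] (insA (NN q k'))

lemma Phi_succ (q : ℝ) (k k' : ℕ) : Phi q (k+1) k' = lawN q (Phi q k k') := by
  unfold Phi
  rw [Function.iterate_succ_apply']

lemma cf_zero_of (k k' M i : ℕ) (h : k + k' + 1 < M) : cf k k' M i = 0 := by
  unfold cf
  by_cases h1 : k < i
  · rw [Nat.choose_eq_zero_of_lt h1]; simp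
  · rw [Nat.choose_eq_zero_of_lt (show k' < M-1-i by omega)]; simp

lemma Phi_formula (q : ℝ) (k k' : ℕ) (w : List Letter) :
    wt q .a * Phi q k k' w
      = q^(2*(k+k'+1-w.length)) * wl q w * lin (cf k k' w.length) w := by
  induction k generalizing w with
  | zero =>
    cases w with
    | nil => simp [Phi, insA, lin]
    | cons l w =>
      have hlin : lin (cf 0 k' (l::w).length) (l::w)
          = if l = Letter.a then (k'.choose w.length : ℝ) else 0 := by
        simp only [lin, List.length_cons]
        have : lin (fun i => cf 0 k' (w.length+1) (i+1)) w = 0 := by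
          have h : (fun i => cf 0 k' (w.length+1) (i+1)) = fun _ => (0:ℝ) := by
            funext i; simp [cf]
          rw [h, lin_zero]
        rw [this]
        simp [cf]
      rw [hlin]
      simp only [Phi, Function.iterate_zero, id_eq, insA, List.length_cons, wl]
      split_ifs with hl
      · subst hl
        rw [NN_formula]
        have e : 2*(0+k'+1-(w.length+1)) = 2*(k'-w.length) := by omega
        rw [e]
        ring
      · ring
  | succ k ih =>
    rw [Phi_succ]
    cases w with
    | nil =>
      have h := ih []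
      simp only [lin, mul_zero] at h ⊢
      simp only [lawN]
      linear_combination q^2 * h
    | cons l w =>
      have h1 := ih (l::w)
      have h2 := ih w
      simp only [lawN]
      have hlin : lin (cf (k+1) k' (l::w).length) (l::w)
          = lin (cf k k' (l::w).length) (l::w) + lin (cf k k' w.length) w := by
        simp only [lin, List.length_cons]
        have e0 : cf (k+1) k' (w.length+1) 0 = cf k k' (w.length+1) 0 := by simp [cf]
        have e1 : lin (fun i => cf (k+1) k' (w.length+1) (i+1)) w
            = lin (fun i => cf k k' (w.length+1) (i+1)) w + lin (cf k k' w.length) w := by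
          rw [← lin_add]
          apply lin_congr
          intro i hi
          simp only [cf]
          rw [Nat.choose_succ_succ]
          have : w.length+1-1-(i+1) = w.length-1-i := by omega
          rw [this]
          push_cast; ring
        rw [e0, e1]; ring
      rw [hlin]
      simp only [List.length_cons, wl] at h1 ⊢
      have e2 : 2*(k+1+k'+1-(w.length+1)) = 2*(k+k'+1-w.length) := by omega
      rw [e2]
      by_cases hM : w.length + 1 ≤ k + k' + 1
      · have e1 : 2*(k+k'+1-w.length) = 2*(k+k'+1-(w.length+1)) + 2 := by omega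
        rw [e1, pow_add] at h2 ⊢
        linear_combination q^2 * h1 + wt q l * h2
      · have hz : lin (cf k k' (w.length+1)) (l::w) = 0 := by
          have : cf k k' (w.length+1) = fun _ => (0:ℝ) := by
            funext i; exact cf_zero_of _ _ _ _ (by omega)
          rw [this, lin_zero]
        rw [hz] at h1 ⊢
        linear_combination q^2 * h1 + wt q l * h2

/-- the two laws on words -/
noncomputable def PX (q : ℝ) (a : ℕ) : List Letter → ℝ := (lawN q)^[a] (lawX q (NN q (a+1)))
noncomputable def PY (q : ℝ) (a : ℕ) : List Letter → ℝ := (lawN q)^[a+1] (lawX q (NN q a))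

lemma iter_NN (q : ℝ) (k k' : ℕ) : (lawN q)^[k] (NN q k') = NN q (k+k') := by
  unfold NN
  rw [← Function.iterate_add_apply]

lemma PX_eq (q : ℝ) (a : ℕ) (w : List Letter) :
    PX q a w = q * NN q (2*a+1) w + (1-q) * Phi q a (a+1) w := by
  unfold PX lawX
  rw [lawN_iter_lin, iter_NN]
  have : a + (a+1) = 2*a+1 := by ring
  rw [this]
  rfl

lemma PY_eq (q : ℝ) (a : ℕ) (w : List Letter) :
    PY q a w = q * NN q (2*a+1) w + (1-q) * Phi q (a+1) a w := by
  unfold PY lawX
  rw [lawN_iter_lin, iter_NN]
  have : a + 1 + a = 2*a+1 := by ring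
  rw [this]
  rfl

lemma diff_formula (q : ℝ) (a : ℕ) (w : List Letter) :
    q * (PX q a w - PY q a w)
      = q^(2*(2*a+2-w.length)) * wl q w * lin (delta a (w.length-1)) w := by
  rw [PX_eq, PY_eq]
  have h1 := Phi_formula q a (a+1) w
  have h2 := Phi_formula q (a+1) a w
  have e1 : a + (a+1) + 1 = 2*a+2 := by ring
  have e2 : a + 1 + a + 1 = 2*a+2 := by ring
  rw [e1] at h1
  rw [e2] at h2
  have hlin : lin (delta a (w.length-1)) w = lin (cf a (a+1) w.length) w - lin (cf (a+1) a w.length) w := by
    rw [← lin_sub]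
    rfl
  rw [hlin]
  simp only [wt] at h1 h2
  linear_combination h1 - h2

lemma lawN_nonneg (q : ℝ) (h0 : 0 ≤ q) (h1 : q ≤ 1) (μ : List Letter → ℝ) (h : ∀ w, 0 ≤ μ w)
    (w : List Letter) : 0 ≤ lawN q μ w := by
  cases w with
  | nil => simp only [lawN]; exact mul_nonneg (by positivity) (h _)
  | cons l w =>
    simp only [lawN]
    have : 0 ≤ wt q l := by cases l <;> simp only [wt] <;> nlinarith
    exact add_nonneg (mul_nonneg (by positivity) (h _)) (mul_nonneg this (h _))

lemma lawN_iter_nonneg (q : ℝ) (h0 : 0 ≤ q) (h1 : q ≤ 1) (k : ℕ) (μ : List Letter → ℝ)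
    (h : ∀ w, 0 ≤ μ w) (w : List Letter) : 0 ≤ (lawN q)^[k] μ w := by
  induction k generalizing μ w with
  | zero => exact h w
  | succ k ih =>
    rw [Function.iterate_succ_apply]
    exact ih _ (lawN_nonneg q h0 h1 μ h) w

lemma NN_nonneg (q : ℝ) (h0 : 0 ≤ q) (h1 : q ≤ 1) (k : ℕ) (w : List Letter) : 0 ≤ NN q k w := by
  apply lawN_iter_nonneg q h0 h1
  intro w
  cases w <;> simp [dirac]

lemma Phi_nonneg (q : ℝ) (h0 : 0 ≤ q) (h1 : q ≤ 1) (k k' : ℕ) (w : List Letter) :
    0 ≤ Phi q k k' w := by
  apply lawN_iter_nonneg q h0 h1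
  intro w
  cases w with
  | nil => simp [insA]
  | cons l w =>
    simp only [insA]
    split_ifs
    · exact NN_nonneg q h0 h1 _ _
    · exact le_refl _

/-- support in words of length at most `B` -/
def SuppLE (μ : List Letter → ℝ) (B : ℕ) : Prop := ∀ w, B < w.length → μ w = 0

lemma SuppLE.lawN {q : ℝ} {μ : List Letter → ℝ} {B : ℕ} (h : SuppLE μ B) :
    SuppLE (lawN q μ) (B+1) := by
  intro w hw
  cases w with
  | nil => simp at hw
  | cons l w =>
    simp only [Vale.Agent.P321.lawN]
    simp only [List.length_cons] at hw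
    rw [h (l::w) (by simp; omega), h w (by omega)]
    ring

lemma SuppLE.lawX {q : ℝ} {μ : List Letter → ℝ} {B : ℕ} (h : SuppLE μ B) :
    SuppLE (lawX q μ) (B+1) := by
  intro w hw
  cases w with
  | nil => simp at hw
  | cons l w =>
    simp only [Vale.Agent.P321.lawX, insA]
    simp only [List.length_cons] at hw
    rw [h (l::w) (by simp; omega), h w (by omega)]
    simp

lemma SuppLE.dirac : SuppLE dirac 0 := by
  intro w hw
  cases w with
  | nil => simp at hw
  | cons l w => rfl

lemma SuppLE.iter {q : ℝ} {μ : List Letter → ℝ} {B : ℕ} (h : SuppLE μ B) (k : ℕ) :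
    SuppLE ((Vale.Agent.P321.lawN q)^[k] μ) (B+k) := by
  induction k with
  | zero => exact h
  | succ k ih =>
    rw [Function.iterate_succ_apply']
    exact ih.lawN

/-- the integral of `G` against a law supported on words of length at most `B` -/
noncomputable def E (B : ℕ) (μ G : List Letter → ℝ) : ℝ :=
  ∑ M ∈ range (B+1), S M (fun w => μ w * G w)

lemma S_lawN (q : ℝ) (M : ℕ) (μ G : List Letter → ℝ) :
    S (M+1) (fun w => lawN q μ w * G w)
      = q^2 * S (M+1) (fun w => μ w * G w)
        + (wt q .a * S M (fun w => μ w * G (.a::w)) + wt q .b * S M (fun w => μ w * G (.b::w))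
          + wt q .c * S M (fun w => μ w * G (.c::w))) := by
  simp only [S, lawN]
  rw [← S_mul M (wt q .a), ← S_mul M (wt q .b), ← S_mul M (wt q .c)]
  rw [mul_add, mul_add, ← S_mul, ← S_mul, ← S_mul]
  have h : ∀ l : Letter, S M (fun w => (q^2 * μ (l::w) + wt q l * μ w) * G (l::w))
      = S M (fun w => q^2 * (μ (l::w) * G (l::w))) + S M (fun w => wt q l * (μ w * G (l::w))) := by
    intro l
    rw [← S_add]
    apply S_congr
    intro w _
    ring
  rw [h, h, h]
  ring

lemma E_lawN (q : ℝ) (B : ℕ) (μ G : List Letter → ℝ) (h : SuppLE μ B) :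
    E (B+1) (lawN q μ) G
      = q^2 * E B μ G + (wt q .a * E B μ (fun w => G (.a::w)) + wt q .b * E B μ (fun w => G (.b::w))
          + wt q .c * E B μ (fun w => G (.c::w))) := by
  unfold E
  rw [Finset.sum_range_succ']
  simp only [S_lawN]
  rw [Finset.sum_add_distrib, ← Finset.mul_sum, Finset.sum_add_distrib, Finset.sum_add_distrib,
    ← Finset.mul_sum, ← Finset.mul_sum, ← Finset.mul_sum]
  have h0 : S 0 (fun w => lawN q μ w * G w) = q^2 * S 0 (fun w => μ w * G w) := by
    simp only [S, lawN]; ring
  have hsum : ∑ M ∈ range (B+1), S (M+1) (fun w => μ w * G w) + S 0 (fun w => μ w * G w)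
      = ∑ M ∈ range (B+1), S M (fun w => μ w * G w) := by
    rw [← Finset.sum_range_succ' (fun M => S M (fun w => μ w * G w)) (B+1)]
    rw [Finset.sum_range_succ]
    have : S (B+1) (fun w => μ w * G w) = 0 := by
      rw [← S_zero (B+1)]
      apply S_congr
      intro w hw
      rw [h w (by omega)]; ring
    rw [this, add_zero]
  rw [h0, ← hsum]
  ring

lemma S_lawX (q : ℝ) (M : ℕ) (μ G : List Letter → ℝ) :
    S (M+1) (fun w => lawX q μ w * G w)
      = q * S (M+1) (fun w => μ w * G w) + (1-q) * S M (fun w => μ w * G (.a::w)) := by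
  have e : S (M+1) (fun w => lawX q μ w * G w)
      = q * S (M+1) (fun w => μ w * G w) + (1-q) * S (M+1) (fun w => insA μ w * G w) := by
    rw [← S_mul, ← S_mul, ← S_add]
    apply S_congr
    intro w _
    simp only [lawX]; ring
  rw [e]
  congr 2
  simp only [S, insA]
  simp [S_zero]

lemma E_lawX (q : ℝ) (B : ℕ) (μ G : List Letter → ℝ) (h : SuppLE μ B) :
    E (B+1) (lawX q μ) G = q * E B μ G + (1-q) * E B μ (fun w => G (.a::w)) := by
  unfold E
  rw [Finset.sum_range_succ']
  simp only [S_lawX]
  rw [Finset.sum_add_distrib, ← Finset.mul_sum, ← Finset.mul_sum]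
  have h0 : S 0 (fun w => lawX q μ w * G w) = q * S 0 (fun w => μ w * G w) := by
    simp only [S, lawX, insA]; ring
  have hsum : ∑ M ∈ range (B+1), S (M+1) (fun w => μ w * G w) + S 0 (fun w => μ w * G w)
      = ∑ M ∈ range (B+1), S M (fun w => μ w * G w) := by
    rw [← Finset.sum_range_succ' (fun M => S M (fun w => μ w * G w)) (B+1)]
    rw [Finset.sum_range_succ]
    have : S (B+1) (fun w => μ w * G w) = 0 := by
      rw [← S_zero (B+1)]
      apply S_congr
      intro w hw
      rw [h w (by omega)]; ring
    rw [this, add_zero]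
  rw [h0, ← hsum]
  ring

end Vale.Agent.P321
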