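import Mathlib

namespace Vale.Agent.P321

open Finset

lemma pi_expect {ι W T : Type*} [Fintype ι] [Fintype W] (u : ι → ℝ) (F : ι → T) (P : W → ℝ)
    (f : W → T) (h : ∀ g : T → ℝ, ∑ k, u k * g (F k) = ∑ w, P w * g (f w)) (m : ℕ)
    (φ : (Fin m → T) → ℝ) :
    ∑ k : Fin m → ι, (∏ j, u (k j)) * φ (fun j => F (k j))
      = ∑ w : Fin m → W, (∏ j, P (w j)) * φ (fun j => f (w j)) := by
  induction m with
  | zero =>
    simp only [Finset.univ_unique, Finset.sum_singleton, Finset.univ_eq_empty, Finset.prod_empty,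
      one_mul]
    congr 1
    funext j
    exact j.elim0
  | succ m ih =>
    rw [← (Fin.consEquiv (fun _ : Fin (m+1) => ι)).sum_comp, Fintype.sum_prod_type]
    rw [← (Fin.consEquiv (fun _ : Fin (m+1) => W)).sum_comp, Fintype.sum_prod_type]
    have hL : ∀ (k0 : ι) (k : Fin m → ι),
        (∏ j, u ((Fin.consEquiv (fun _ : Fin (m+1) => ι)) (k0, k) j))
          * φ (fun j => F ((Fin.consEquiv (fun _ : Fin (m+1) => ι)) (k0, k) j))
        = u k0 * ((∏ j, u (k j)) * φ (Fin.cons (F k0) (fun j => F (k j)))) := by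
      intro k0 k
      rw [Fin.prod_univ_succ]
      have e : (fun j => F ((Fin.consEquiv (fun _ : Fin (m+1) => ι)) (k0, k) j))
          = Fin.cons (F k0) (fun j => F (k j)) := by
        funext j
        refine Fin.cases ?_ ?_ j
        · simp [Fin.consEquiv]
        · intro i; simp [Fin.consEquiv]
      rw [e]
      simp [Fin.consEquiv]
      ring
    have hR : ∀ (k0 : W) (k : Fin m → W),
        (∏ j, P ((Fin.consEquiv (fun _ : Fin (m+1) => W)) (k0, k) j))
          * φ (fun j => f ((Fin.consEquiv (fun _ : Fin (m+1) => W)) (k0, k) j))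
        = P k0 * ((∏ j, P (k j)) * φ (Fin.cons (f k0) (fun j => f (k j)))) := by
      intro k0 k
      rw [Fin.prod_univ_succ]
      have e : (fun j => f ((Fin.consEquiv (fun _ : Fin (m+1) => W)) (k0, k) j))
          = Fin.cons (f k0) (fun j => f (k j)) := by
        funext j
        refine Fin.cases ?_ ?_ j
        · simp [Fin.consEquiv]
        · intro i; simp [Fin.consEquiv]
      rw [e]
      simp [Fin.consEquiv]
      ring
    simp only [hL, hR]
    simp only [← Finset.mul_sum]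
    have h1 : ∀ k0 : ι, ∑ k : Fin m → ι, (∏ j, u (k j)) * φ (Fin.cons (F k0) (fun j => F (k j)))
        = ∑ w : Fin m → W, (∏ j, P (w j)) * φ (Fin.cons (F k0) (fun j => f (w j))) := by
      intro k0
      exact ih (fun t => φ (Fin.cons (F k0) t))
    simp only [h1]
    simp only [Finset.mul_sum]
    rw [Finset.sum_comm]
    rw [Finset.sum_comm (γ := W)]
    apply Finset.sum_congr rfl
    intro w _
    have h2 := h (fun t => (∏ j, P (w j)) * φ (Fin.cons t (fun j => f (w j))))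
    exact h2

lemma sum_prod_pow {W : Type*} [Fintype W] (m : ℕ) (g : W → ℝ) :
    ∑ w : Fin m → W, ∏ j, g (w j) = (∑ w, g w)^m := by
  have h := Finset.prod_univ_sum (R := ℝ) (ι := Fin m) (t := fun _ => (Finset.univ : Finset W))
    (f := fun _ w => g w)
  rw [Fintype.piFinset_univ] at h
  rw [← h]
  simp

theorem two_point {W : Type*} [Fintype W] (P Q : W → ℝ) (hP : ∀ w, 0 ≤ P w) (hQ : ∀ w, 0 ≤ Q w)
    (hP1 : ∑ w, P w = 1) (hQ1 : ∑ w, Q w = 1) (m : ℕ) (φ : (Fin m → W) → ℝ)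
    (h0 : ∀ w, 0 ≤ φ w) (h1 : ∀ w, φ w ≤ 1) :
    (∑ w : Fin m → W, (∏ j, P (w j)) * φ w - ∑ w : Fin m → W, (∏ j, Q (w j)) * φ w)^2
      ≤ 1 - ((∑ w, √(P w) * √(Q w))^m)^2 := by
  set s : (Fin m → W) → ℝ := fun w => ∏ j, √(P (w j)) with hs
  set t : (Fin m → W) → ℝ := fun w => ∏ j, √(Q (w j)) with ht
  have hsP : ∀ w : Fin m → W, s w ^ 2 = ∏ j, P (w j) := by
    intro w
    rw [hs]
    simp only
    rw [← Finset.prod_pow]
    apply Finset.prod_congr rfl
    intro j _
    exact Real.sq_sqrt (hP _)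
  have htQ : ∀ w : Fin m → W, t w ^ 2 = ∏ j, Q (w j) := by
    intro w
    rw [ht]
    simp only
    rw [← Finset.prod_pow]
    apply Finset.prod_congr rfl
    intro j _
    exact Real.sq_sqrt (hQ _)
  have hs1 : ∑ w, s w ^ 2 = 1 := by
    simp only [hsP]
    rw [sum_prod_pow, hP1, one_pow]
  have ht1 : ∑ w, t w ^ 2 = 1 := by
    simp only [htQ]
    rw [sum_prod_pow, hQ1, one_pow]
  have hst : ∑ w, s w * t w = (∑ w, √(P w) * √(Q w))^m := by
    rw [← sum_prod_pow]
    apply Finset.sum_congr rfl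
    intro w _
    rw [hs, ht]
    simp only
    rw [← Finset.prod_mul_distrib]
  have hD : ∑ w : Fin m → W, (∏ j, P (w j)) * φ w - ∑ w : Fin m → W, (∏ j, Q (w j)) * φ w
      = ∑ w, (s w - t w) * ((s w + t w) * (φ w - 1/2)) := by
    have : ∑ w, (s w - t w) * ((s w + t w) * (φ w - 1/2))
        = ∑ w, (s w ^ 2 * φ w - t w ^ 2 * φ w) - (1/2) * (∑ w, s w ^ 2 - ∑ w, t w ^ 2) := by
      rw [← Finset.sum_sub_distrib, Finset.mul_sum, ← Finset.sum_sub_distrib]
      apply Finset.sum_congr rfl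
      intro w _
      ring
    rw [this, hs1, ht1, Finset.sum_sub_distrib]
    simp only [hsP, htQ]
    ring
  rw [hD]
  have hCS := Finset.sum_mul_sq_le_sq_mul_sq Finset.univ (fun w => s w - t w)
    (fun w => (s w + t w) * (φ w - 1/2))
  refine hCS.trans ?_
  have e1 : ∑ w, (s w - t w)^2 = 2 - 2 * ∑ w, s w * t w := by
    have : ∑ w, (s w - t w)^2 = ∑ w, s w ^ 2 + ∑ w, t w ^ 2 - 2 * ∑ w, s w * t w := by
      rw [Finset.mul_sum, ← Finset.sum_add_distrib, ← Finset.sum_sub_distrib]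
      apply Finset.sum_congr rfl
      intro w _
      ring
    rw [this, hs1, ht1]; ring
  have e2 : ∑ w, ((s w + t w) * (φ w - 1/2))^2 ≤ (1/4) * (2 + 2 * ∑ w, s w * t w) := by
    have e3 : ∑ w, (s w + t w)^2 = 2 + 2 * ∑ w, s w * t w := by
      have : ∑ w, (s w + t w)^2 = ∑ w, s w ^ 2 + ∑ w, t w ^ 2 + 2 * ∑ w, s w * t w := by
        rw [Finset.mul_sum, ← Finset.sum_add_distrib, ← Finset.sum_add_distrib]
        apply Finset.sum_congr rfl
        intro w _
        ring
      rw [this, hs1, ht1]; ring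
    rw [← e3, Finset.mul_sum]
    apply Finset.sum_le_sum
    intro w _
    rw [mul_pow]
    have : (φ w - 1/2)^2 ≤ 1/4 := by nlinarith [h0 w, h1 w]
    nlinarith [sq_nonneg (s w + t w)]
  have hpos : 0 ≤ 2 - 2 * ∑ w, s w * t w := by
    rw [← e1]; exact Finset.sum_nonneg (fun w _ => sq_nonneg _)
  rw [e1]
  calc (2 - 2 * ∑ w, s w * t w) * ∑ w, ((s w + t w) * (φ w - 1/2))^2
      ≤ (2 - 2 * ∑ w, s w * t w) * ((1/4) * (2 + 2 * ∑ w, s w * t w)) :=
        mul_le_mul_of_nonneg_left e2 hpos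
    _ = 1 - (∑ w, s w * t w)^2 := by ring
    _ = _ := by rw [hst]

end Vale.Agent.P321
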