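import Mathlib
import Vale.Agent.P321.Defs
import Vale.Agent.P321.Law
import Vale.Agent.P321.TwoPoint

namespace Vale.Agent.P321

open Finset

/-- expectation of `g` over the trace of a list -/
noncomputable def tr (q : ℝ) : List Bool → (List Bool → ℝ) → ℝ
  | [], g => g []
  | b::l, g => (1-q) * tr q l (fun w => g (b::w)) + q * tr q l g

lemma sum_pattern (q : ℝ) (n : ℕ) (x : Fin n → Bool) (g : List Bool → ℝ) :
    ∑ k : Fin n → Bool, patternProb q k * g (trace x k) = tr q (List.ofFn x) g := by
  induction n generalizing g with
  | zero => simp [patternProb, trace, tr]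
  | succ n ih =>
    rw [← (Fin.consEquiv (fun _ : Fin (n+1) => Bool)).sum_comp, Fintype.sum_prod_type]
    rw [Fintype.sum_bool, List.ofFn_succ]
    simp only [tr]
    rw [← ih, ← ih, Finset.mul_sum, Finset.mul_sum]
    have hp : ∀ (b : Bool) (k : Fin n → Bool),
        patternProb q ((Fin.consEquiv (fun _ : Fin (n+1) => Bool)) (b, k))
          = (if b then 1-q else q) * patternProb q k := by
      intro b k
      unfold patternProb
      rw [Fin.prod_univ_succ]
      simp [Fin.consEquiv]
    have ht : ∀ (b : Bool) (k : Fin n → Bool),
        trace x ((Fin.consEquiv (fun _ : Fin (n+1) => Bool)) (b, k))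
          = (if b then [x 0] else []) ++ trace (fun i => x i.succ) k := by
      intro b k
      unfold trace
      rw [List.finRange_succ, List.filter_cons, List.filter_map]
      simp only [Fin.consEquiv, Equiv.coe_fn_mk, Fin.cons_zero]
      cases b <;> simp [Function.comp_def]
    simp only [hp, ht]
    simp only [if_true, Bool.false_eq_true, if_false, List.nil_append, List.singleton_append]
    congr 1
    · apply Finset.sum_congr rfl; intro k _; ring
    · apply Finset.sum_congr rfl; intro k _; ring

def Letter.toBits : Letter → List Bool
  | .a => [false]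
  | .b => [true]
  | .c => [false, true]

def bits (w : List Letter) : List Bool := w.flatMap Letter.toBits

lemma bits_a (w : List Letter) : bits (.a::w) = false :: bits w := by simp [bits, Letter.toBits]
lemma bits_b (w : List Letter) : bits (.b::w) = true :: bits w := by simp [bits, Letter.toBits]
lemma bits_c (w : List Letter) : bits (.c::w) = false :: true :: bits w := by
  simp [bits, Letter.toBits]

/-- the law `μ` on words (length at most `B`) describes the trace of the string `l` -/
def Describes (q : ℝ) (μ : List Letter → ℝ) (B : ℕ) (l : List Bool) : Prop :=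
  SuppLE μ B ∧ ∀ g : List Bool → ℝ, E B μ (fun w => g (bits w)) = tr q l g

lemma describes_dirac (q : ℝ) : Describes q dirac 0 [] := by
  refine ⟨SuppLE.dirac, ?_⟩
  intro g
  simp [E, S, dirac, tr, bits]

lemma Describes.N {q : ℝ} {μ : List Letter → ℝ} {B : ℕ} {l : List Bool}
    (h : Describes q μ B l) : Describes q (lawN q μ) (B+1) (false::true::l) := by
  refine ⟨h.1.lawN, ?_⟩
  intro g
  rw [E_lawN q B μ _ h.1]
  simp only [bits_a, bits_b, bits_c]
  rw [h.2 g, h.2 (fun w => g (false::w)), h.2 (fun w => g (true::w)),
    h.2 (fun w => g (false::true::w))]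
  simp only [tr, wt]
  ring

lemma Describes.X {q : ℝ} {μ : List Letter → ℝ} {B : ℕ} {l : List Bool}
    (h : Describes q μ B l) : Describes q (lawX q μ) (B+1) (false::l) := by
  refine ⟨h.1.lawX, ?_⟩
  intro g
  rw [E_lawX q B μ _ h.1]
  simp only [bits_a]
  rw [h.2 g, h.2 (fun w => g (false::w))]
  simp only [tr]
  ring

def blocks (k : ℕ) (l : List Bool) : List Bool := (fun t => false::true::t)^[k] l

lemma Describes.iter {q : ℝ} {μ : List Letter → ℝ} {B : ℕ} {l : List Bool}
    (h : Describes q μ B l) (k : ℕ) : Describes q ((lawN q)^[k] μ) (B+k) (blocks k l) := by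
  induction k with
  | zero => exact h
  | succ k ih =>
    unfold blocks at ih ⊢
    rw [Function.iterate_succ_apply', Function.iterate_succ_apply']
    exact ih.N

def strX (a : ℕ) : List Bool := blocks a (false :: blocks (a+1) [])
def strY (a : ℕ) : List Bool := blocks (a+1) (false :: blocks a [])

lemma describes_PX (q : ℝ) (a : ℕ) : Describes q (PX q a) (2*a+2) (strX a) := by
  have h := (((describes_dirac q).iter (a+1)).X).iter a
  have e : 0 + (a+1) + 1 + a = 2*a+2 := by ring
  rw [e] at h
  exact h

lemma describes_PY (q : ℝ) (a : ℕ) : Describes q (PY q a) (2*a+2) (strY a) := by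
  have h := (((describes_dirac q).iter a).X).iter (a+1)
  have e : 0 + a + 1 + (a+1) = 2*a+2 := by ring
  rw [e] at h
  exact h

lemma blocks_length (k : ℕ) (l : List Bool) : (blocks k l).length = 2*k + l.length := by
  induction k with
  | zero => simp [blocks]
  | succ k ih =>
    unfold blocks at ih ⊢
    rw [Function.iterate_succ_apply']
    simp only [List.length_cons, ih]
    ring

lemma strX_length (a : ℕ) : (strX a).length = 4*a+3 := by
  simp only [strX, blocks_length, List.length_cons, List.length_nil]; ring

lemma strY_length (a : ℕ) : (strY a).length = 4*a+3 := by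
  simp only [strY, blocks_length, List.length_cons, List.length_nil]; ring

lemma strX_ne_strY (a : ℕ) : strX a ≠ strY a := by
  intro h
  unfold strX strY blocks at h
  rw [Function.iterate_succ_apply, Function.iterate_succ_apply] at h
  have hinj : Function.Injective ((fun t : List Bool => false::true::t)^[a]) := by
    apply Function.Injective.iterate
    intro s t hst
    simpa using hst
  have := hinj h
  simp at this
  cases a with
  | zero => simp at this
  | succ a =>
    rw [Function.iterate_succ_apply'] at this
    simp at this

/-- the finite type of words of length at most `B` -/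
abbrev Wd (B : ℕ) := (M : Fin (B+1)) × (Fin (M : ℕ) → Letter)

noncomputable def toWord {B : ℕ} (w : Wd B) : List Letter := List.ofFn w.2

lemma E_eq_sum (B : ℕ) (G : List Letter → ℝ) :
    ∑ w : Wd B, G (toWord w) = ∑ M ∈ range (B+1), S M G := by
  rw [Fintype.sum_sigma]
  rw [Finset.sum_range]
  apply Finset.sum_congr rfl
  intro M _
  rw [S_eq_sum]
  rfl

end Vale.Agent.P321
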