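import Mathlib
import Vale.Agent.P321.TraceLaw

namespace Vale.Agent.P321

open Finset

lemma PX_nonneg (q : ℝ) (h0 : 0 ≤ q) (h1 : q ≤ 1) (a : ℕ) (w : List Letter) : 0 ≤ PX q a w := by
  rw [PX_eq]
  have := NN_nonneg q h0 h1 (2*a+1) w
  have := Phi_nonneg q h0 h1 a (a+1) w
  have : 0 ≤ 1 - q := by linarith
  positivity

lemma PY_nonneg (q : ℝ) (h0 : 0 ≤ q) (h1 : q ≤ 1) (a : ℕ) (w : List Letter) : 0 ≤ PY q a w := by
  rw [PY_eq]
  have := NN_nonneg q h0 h1 (2*a+1) w
  have := Phi_nonneg q h0 h1 (a+1) a w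
  have : 0 ≤ 1 - q := by linarith
  positivity

lemma PX_ge (q : ℝ) (h0 : 0 ≤ q) (h1 : q ≤ 1) (a : ℕ) (w : List Letter) :
    q * NN q (2*a+1) w ≤ PX q a w := by
  rw [PX_eq]
  have := Phi_nonneg q h0 h1 a (a+1) w
  have : 0 ≤ 1 - q := by linarith
  have : 0 ≤ (1-q) * Phi q a (a+1) w := by positivity
  linarith

lemma PY_ge (q : ℝ) (h0 : 0 ≤ q) (h1 : q ≤ 1) (a : ℕ) (w : List Letter) :
    q * NN q (2*a+1) w ≤ PY q a w := by
  rw [PY_eq]
  have := Phi_nonneg q h0 h1 (a+1) a w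
  have : 0 ≤ 1 - q := by linarith
  have : 0 ≤ (1-q) * Phi q (a+1) a w := by positivity
  linarith

lemma sqrt_diff_sq (P Q R : ℝ) (hR : 0 ≤ R) (hP : R ≤ P) (hQ : R ≤ Q) :
    (√P - √Q)^2 * (4 * R) ≤ (P - Q)^2 := by
  have hP0 : 0 ≤ P := hR.trans hP
  have hQ0 : 0 ≤ Q := hR.trans hQ
  have h1 : √R ≤ √P := Real.sqrt_le_sqrt hP
  have h2 : √R ≤ √Q := Real.sqrt_le_sqrt hQ
  have h3 : 4 * R ≤ (√P + √Q)^2 := by
    have hR2 : √R^2 = R := Real.sq_sqrt hR
    have : 0 ≤ √R := Real.sqrt_nonneg _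
    nlinarith
  calc (√P - √Q)^2 * (4 * R) ≤ (√P - √Q)^2 * (√P + √Q)^2 :=
        mul_le_mul_of_nonneg_left h3 (sq_nonneg _)
    _ = (√P^2 - √Q^2)^2 := by ring
    _ = (P - Q)^2 := by rw [Real.sq_sqrt hP0, Real.sq_sqrt hQ0]

lemma pointwise_bound (q : ℝ) (h0 : 0 < q) (h1 : q < 1) (a : ℕ) (w : List Letter)
    (hw : w.length ≤ 2*a+1) :
    (√(PX q a w) - √(PY q a w))^2
      ≤ (q^(2*(2*a+2-w.length)) / (4 * q * ((2*a+1).choose w.length : ℝ)))
          * (wl q w * (lin (delta a (w.length-1)) w)^2) := by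
  have hN : NN q (2*a+1) w = ((2*a+1).choose w.length : ℝ) * q^(2*(2*a+1 - w.length)) * wl q w :=
    NN_formula q _ w
  set C : ℝ := ((2*a+1).choose w.length : ℝ) with hC
  have hCpos : 0 < C := by
    rw [hC]; exact_mod_cast Nat.choose_pos hw
  have hwl : 0 < wl q w := wl_pos q h0 h1 w
  have hNpos : 0 < NN q (2*a+1) w := by rw [hN]; positivity
  have hs := sqrt_diff_sq (PX q a w) (PY q a w) (q * NN q (2*a+1) w) (by positivity)
    (PX_ge q h0.le h1.le a w) (PY_ge q h0.le h1.le a w)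
  have hd := diff_formula q a w
  set L := lin (delta a (w.length-1)) w with hL
  have e1 : 2*(2*a+2-w.length) = 2*(2*a+1-w.length) + 2 := by omega
  set t : ℝ := q^(2*(2*a+1-w.length)) with ht
  have htpos : 0 < t := by positivity
  rw [e1, pow_add] at hd
  rw [e1, pow_add]
  rw [hN] at hs
  have h4 : 0 < 4 * (q * (C * t * wl q w)) := by positivity
  have h5 : (√(PX q a w) - √(PY q a w))^2 ≤ (PX q a w - PY q a w)^2 / (4 * (q * (C * t * wl q w))) := by
    rw [le_div_iff₀ h4]; exact hs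
  refine h5.trans (le_of_eq ?_)
  have hd2 : PX q a w - PY q a w = t * q * wl q w * L := by
    have : q * (PX q a w - PY q a w) = q * (t * q * wl q w * L) := by
      rw [hd]; ring
    exact mul_left_cancel₀ h0.ne' this
  rw [hd2]
  field_simp
  rw [ht]; ring

lemma level_bound (q : ℝ) (h0 : 0 < q) (h1 : q < 1) (a M : ℕ) (hM : M ≤ 2*a+1) :
    S M (fun w => (√(PX q a w) - √(PY q a w))^2)
      ≤ 4 / (q * (((a+1 : ℕ) : ℝ) * √((a+1 : ℕ) : ℝ))) *
        (q^(2*(2*a+2-M)) * (1-q^2)^M * ((2*a+5).choose M : ℝ)) := by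
  have hr : 0 < 1 - q^2 := by nlinarith
  set A : ℝ := ((a+1 : ℕ) : ℝ) with hA
  have hA0 : 0 < A := by rw [hA]; positivity
  have hsA : 0 < √A := Real.sqrt_pos.mpr hA0
  have hCpos : (0:ℝ) < ((2*a+1).choose M : ℝ) := by exact_mod_cast Nat.choose_pos hM
  -- first step
  have step1 : S M (fun w => (√(PX q a w) - √(PY q a w))^2)
      ≤ (q^(2*(2*a+2-M)) / (4 * q * ((2*a+1).choose M : ℝ)))
          * S M (fun w => wl q w * (lin (delta a (M-1)) w)^2) := by
    rw [← S_mul]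
    apply S_mono
    intro w hw
    have := pointwise_bound q h0 h1 a w (by omega)
    rw [hw] at this
    exact this
  -- second step
  have step2 : S M (fun w => wl q w * (lin (delta a (M-1)) w)^2)
      ≤ (1-q^2)^M * (16 / (A * √A) * (((2*a+1).choose M : ℝ) * ((2*a+5).choose M : ℝ))) := by
    rcases Nat.eq_zero_or_pos M with hM0 | hMpos
    · subst hM0
      simp only [S, lin]
      simp
      positivity
    · obtain ⟨K, rfl⟩ : ∃ K, M = K+1 := ⟨M-1, by omega⟩
      have hsq := S_wl_lin_sq q (K+1) (delta a K)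
      rw [delta_sum_zero] at hsq
      have e : K + 1 - 1 = K := by omega
      rw [e]
      have hwt : wt q .a * (1-q^2) - (wt q .a)^2 ≤ (1-q^2)^2 := by
        simp only [wt]
        nlinarith [sq_nonneg (q*(1-q)), mul_pos h0 (sub_pos.mpr h1), mul_pos (mul_pos h0 (sub_pos.mpr h1)) hr]
      have hVV0 : 0 ≤ VV a K := Finset.sum_nonneg (fun i _ => sq_nonneg _)
      have hS : S (K+1) (fun w => wl q w * (lin (delta a K) w)^2) ≤ (1-q^2)^(K+1) * VV a K := by
        have h3 : (1-q^2)^2 * S (K+1) (fun w => wl q w * (lin (delta a K) w)^2)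
            ≤ (1-q^2)^2 * ((1-q^2)^(K+1) * VV a K) := by
          rw [hsq]
          have : (1-q^2)^(K+1) * ((wt q .a * (1-q^2) - (wt q .a)^2) * ∑ i ∈ range (K+1), (delta a K i)^2
              + (wt q .a)^2 * 0^2) = (1-q^2)^(K+1) * ((wt q .a * (1-q^2) - (wt q .a)^2) * VV a K) := by
            simp [VV]
          rw [this]
          have h4 : (wt q .a * (1-q^2) - (wt q .a)^2) * VV a K ≤ (1-q^2)^2 * VV a K :=
            mul_le_mul_of_nonneg_right hwt hVV0
          have h5 : 0 ≤ (1-q^2)^(K+1) := by positivity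
          nlinarith [mul_le_mul_of_nonneg_left h4 h5]
        exact le_of_mul_le_mul_left h3 (by positivity)
      refine hS.trans ?_
      apply mul_le_mul_of_nonneg_left _ (by positivity)
      rcases Nat.eq_zero_or_pos K with hK0 | hKpos
      · subst hK0
        rw [VV_zero]
        positivity
      · obtain ⟨K', rfl⟩ : ∃ K', K = K'+1 := ⟨K-1, by omega⟩
        exact VV_le a K' (by omega)
  refine step1.trans ?_
  calc (q^(2*(2*a+2-M)) / (4 * q * ((2*a+1).choose M : ℝ)))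
          * S M (fun w => wl q w * (lin (delta a (M-1)) w)^2)
      ≤ (q^(2*(2*a+2-M)) / (4 * q * ((2*a+1).choose M : ℝ)))
          * ((1-q^2)^M * (16 / (A * √A) * (((2*a+1).choose M : ℝ) * ((2*a+5).choose M : ℝ)))) :=
        mul_le_mul_of_nonneg_left step2 (by positivity)
    _ = _ := by
        field_simp
        ring

lemma sum_levels (q : ℝ) (h0 : 0 < q) (h1 : q < 1) (a : ℕ) :
    ∑ M ∈ range (2*a+2), S M (fun w => (√(PX q a w) - √(PY q a w))^2)
      ≤ 4 / (q^7 * (((a+1 : ℕ) : ℝ) * √((a+1 : ℕ) : ℝ))) := by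
  have hr : 0 < 1 - q^2 := by nlinarith
  set A : ℝ := ((a+1 : ℕ) : ℝ) with hA
  have hA0 : 0 < A := by rw [hA]; positivity
  have hsA : 0 < √A := Real.sqrt_pos.mpr hA0
  have hbin : ∑ M ∈ range (2*a+2), q^(2*(2*a+2-M)) * (1-q^2)^M * ((2*a+5).choose M : ℝ) ≤ 1 / q^6 := by
    rw [le_div_iff₀ (by positivity), Finset.sum_mul]
    have h2 : ∑ M ∈ range (2*a+2), q^(2*(2*a+2-M)) * (1-q^2)^M * ((2*a+5).choose M : ℝ) * q^6
        = ∑ M ∈ range (2*a+2), (1-q^2)^M * (q^2)^(2*a+5-M) * ((2*a+5).choose M : ℝ) := by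
      apply Finset.sum_congr rfl
      intro M hM
      rw [Finset.mem_range] at hM
      have : (q^2)^(2*a+5-M) = q^(2*(2*a+2-M)) * q^6 := by
        rw [← pow_mul, ← pow_add]
        congr 1
        omega
      rw [this]; ring
    rw [h2]
    have h3 : ∑ M ∈ range (2*a+2), (1-q^2)^M * (q^2)^(2*a+5-M) * ((2*a+5).choose M : ℝ)
        ≤ ∑ M ∈ range (2*a+5+1), (1-q^2)^M * (q^2)^(2*a+5-M) * ((2*a+5).choose M : ℝ) := by
      apply Finset.sum_le_sum_of_subset_of_nonneg
      · intro M hM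
        rw [Finset.mem_range] at hM ⊢
        omega
      · intro M _ _
        positivity
    refine h3.trans (le_of_eq ?_)
    rw [← add_pow]
    ring
  calc ∑ M ∈ range (2*a+2), S M (fun w => (√(PX q a w) - √(PY q a w))^2)
      ≤ ∑ M ∈ range (2*a+2), 4 / (q * (A * √A)) *
        (q^(2*(2*a+2-M)) * (1-q^2)^M * ((2*a+5).choose M : ℝ)) := by
        apply Finset.sum_le_sum
        intro M hM
        rw [Finset.mem_range] at hM
        exact level_bound q h0 h1 a M (by omega)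
    _ = 4 / (q * (A * √A)) * ∑ M ∈ range (2*a+2), (q^(2*(2*a+2-M)) * (1-q^2)^M * ((2*a+5).choose M : ℝ)) := by
        rw [Finset.mul_sum]
    _ ≤ 4 / (q * (A * √A)) * (1 / q^6) := mul_le_mul_of_nonneg_left hbin (by positivity)
    _ = _ := by
        field_simp

lemma top_lawN (q : ℝ) (B : ℕ) (μ : List Letter → ℝ) (h : SuppLE μ B) :
    S (B+1) (lawN q μ) = (1-q^2) * S B μ := by
  have h1 := S_lawN q B μ (fun _ => 1)
  simp only [mul_one] at h1
  rw [h1]
  have : S (B+1) (fun w => μ w) = 0 := by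
    rw [← S_zero (B+1)]
    apply S_congr
    intro w hw
    exact h w (by omega)
  rw [this]
  have hs := wt_sum q
  have e : S B (fun w => μ w) = S B μ := rfl
  rw [e]
  linear_combination S B μ * hs

lemma top_lawX (q : ℝ) (B : ℕ) (μ : List Letter → ℝ) (h : SuppLE μ B) :
    S (B+1) (lawX q μ) = (1-q) * S B μ := by
  have h1 := S_lawX q B μ (fun _ => 1)
  simp only [mul_one] at h1
  rw [h1]
  have : S (B+1) (fun w => μ w) = 0 := by
    rw [← S_zero (B+1)]
    apply S_congr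
    intro w hw
    exact h w (by omega)
  rw [this]
  have e : S B (fun w => μ w) = S B μ := rfl
  rw [e]
  ring

lemma top_iter (q : ℝ) (B : ℕ) (μ : List Letter → ℝ) (h : SuppLE μ B) (k : ℕ) :
    S (B+k) ((lawN q)^[k] μ) = (1-q^2)^k * S B μ := by
  induction k with
  | zero => simp
  | succ k ih =>
    rw [Function.iterate_succ_apply']
    have := top_lawN q (B+k) ((lawN q)^[k] μ) (h.iter k)
    have e : B + (k+1) = B + k + 1 := by ring
    rw [e, this, ih, pow_succ]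
    ring

lemma top_PX (q : ℝ) (a : ℕ) : S (2*a+2) (PX q a) = (1-q) * (1-q^2)^(2*a+1) := by
  have s1 : SuppLE (NN q (a+1)) (0 + (a+1)) := SuppLE.dirac.iter (a+1)
  have t1 := top_iter q 0 dirac SuppLE.dirac (a+1)
  have t2 := top_lawX q (0+(a+1)) (NN q (a+1)) s1
  have t3 := top_iter q (0+(a+1)+1) (lawX q (NN q (a+1))) s1.lawX a
  have e : 0+(a+1)+1+a = 2*a+2 := by ring
  rw [e] at t3
  unfold PX
  rw [t3, t2]
  have : S (0+(a+1)) (NN q (a+1)) = (1-q^2)^(a+1) * S 0 dirac := t1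
  rw [this]
  simp only [S, dirac]
  have e2 : 2*a+1 = a + (a+1) := by ring
  rw [e2, pow_add]
  ring

lemma top_PY (q : ℝ) (a : ℕ) : S (2*a+2) (PY q a) = (1-q) * (1-q^2)^(2*a+1) := by
  have s1 : SuppLE (NN q a) (0 + a) := SuppLE.dirac.iter a
  have t1 := top_iter q 0 dirac SuppLE.dirac a
  have t2 := top_lawX q (0+a) (NN q a) s1
  have t3 := top_iter q (0+a+1) (lawX q (NN q a)) s1.lawX (a+1)
  have e : 0+a+1+(a+1) = 2*a+2 := by ring
  rw [e] at t3
  unfold PY
  rw [t3, t2]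
  have : S (0+a) (NN q a) = (1-q^2)^a * S 0 dirac := t1
  rw [this]
  simp only [S, dirac]
  have e2 : 2*a+1 = a + (a+1) := by ring
  rw [e2, pow_add]
  ring

lemma hellinger_bound (q : ℝ) (h0 : 0 < q) (h1 : q < 1) (a : ℕ) :
    ∑ w : Wd (2*a+2), (√(PX q a (toWord w)) - √(PY q a (toWord w)))^2
      ≤ 4 / (q^7 * (((a+1 : ℕ) : ℝ) * √((a+1 : ℕ) : ℝ))) + 2 * (1-q^2)^(2*a+1) := by
  have h := E_eq_sum (2*a+2) (fun w => (√(PX q a w) - √(PY q a w))^2)
  rw [h, Finset.sum_range_succ]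
  have hr : 0 < 1 - q^2 := by nlinarith
  have htop : S (2*a+2) (fun w => (√(PX q a w) - √(PY q a w))^2) ≤ 2 * (1-q^2)^(2*a+1) := by
    calc S (2*a+2) (fun w => (√(PX q a w) - √(PY q a w))^2)
        ≤ S (2*a+2) (fun w => PX q a w + PY q a w) := by
          apply S_mono
          intro w _
          have hx := PX_nonneg q h0.le h1.le a w
          have hy := PY_nonneg q h0.le h1.le a w
          have e1 := Real.sq_sqrt hx
          have e2 := Real.sq_sqrt hy
          nlinarith [Real.sqrt_nonneg (PX q a w), Real.sqrt_nonneg (PY q a w),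
            mul_nonneg (Real.sqrt_nonneg (PX q a w)) (Real.sqrt_nonneg (PY q a w))]
      _ = (1-q) * (1-q^2)^(2*a+1) + (1-q) * (1-q^2)^(2*a+1) := by
          rw [S_add]
          have e1 : S (2*a+2) (fun w => PX q a w) = S (2*a+2) (PX q a) := rfl
          have e2 : S (2*a+2) (fun w => PY q a w) = S (2*a+2) (PY q a) := rfl
          rw [e1, e2, top_PX, top_PY]
      _ ≤ 2 * (1-q^2)^(2*a+1) := by
          have : 0 < (1-q^2)^(2*a+1) := by positivity
          nlinarith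
  have hs := sum_levels q h0 h1 a
  linarith

end Vale.Agent.P321
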