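import Mathlib
import Vale.Agent.P321.Hellinger

namespace Vale.Agent.P321

open Finset

/-- `m` traces suffice for strings of length `n` -/
def Rec (q : ℝ) (n m : ℕ) : Prop := ∃ e : Estimator m n, ∀ x, 2 / 3 ≤ e.success q x

lemma patternProb_nonneg (q : ℝ) (h0 : 0 ≤ q) (h1 : q ≤ 1) {n : ℕ} (k : Fin n → Bool) :
    0 ≤ patternProb q k := by
  unfold patternProb
  apply Finset.prod_nonneg
  intro i _
  split_ifs
  · linarith
  · exact h0

lemma tr_const (q : ℝ) (l : List Bool) (x : ℝ) : tr q l (fun _ => x) = x := by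
  induction l with
  | nil => rfl
  | cons b l ih =>
    simp only [tr]
    rw [ih]; ring

lemma sum_patternProb (q : ℝ) (n : ℕ) : ∑ k : Fin n → Bool, patternProb q k = 1 := by
  have h := sum_pattern q n (fun _ => false) (fun _ => 1)
  rw [tr_const] at h
  simpa using h

lemma prob_le_one {m n : ℕ} (e : Estimator m n) (t : Fin m → List Bool) (x : Fin n → Bool) :
    e.prob t x ≤ 1 := by
  rw [← e.prob_sum t]
  exact Finset.single_le_sum (fun y _ => e.prob_nonneg t y) (Finset.mem_univ x)

lemma prob_add_le_one {m n : ℕ} (e : Estimator m n) (t : Fin m → List Bool) (x y : Fin n → Bool)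
    (hxy : x ≠ y) : e.prob t x + e.prob t y ≤ 1 := by
  classical
  rw [← e.prob_sum t]
  have : ∑ z ∈ ({x, y} : Finset (Fin n → Bool)), e.prob t z = e.prob t x + e.prob t y := by
    rw [Finset.sum_pair hxy]
  rw [← this]
  apply Finset.sum_le_sum_of_subset_of_nonneg (Finset.subset_univ _)
  intro z _ _
  exact e.prob_nonneg t z

lemma exists_ofFn (n : ℕ) (l : List Bool) (h : l.length = n) :
    ∃ x : Fin n → Bool, List.ofFn x = l := by
  subst h
  exact ⟨l.get, List.ofFn_get l⟩

/-- if `m` traces suffice, then the two laws can be told apart -/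
lemma separation (q : ℝ) (h0 : 0 < q) (h1 : q < 1) (a m : ℕ) (h : Rec q (4*a+3) m) :
    1 ≤ 9 * m * (4 / (q^7 * (((a+1 : ℕ) : ℝ) * √((a+1 : ℕ) : ℝ))) + 2 * (1-q^2)^(2*a+1)) := by
  obtain ⟨e, he⟩ := h
  -- the two strings
  obtain ⟨x, hx⟩ := exists_ofFn (4*a+3) (strX a) (strX_length a)
  obtain ⟨y, hy⟩ := exists_ofFn (4*a+3) (strY a) (strY_length a)
  have hxy : x ≠ y := by
    intro h
    apply strX_ne_strY a
    rw [← hx, ← hy, h]
  set B := 2*a+2 with hB
  set P : Wd B → ℝ := fun w => PX q a (toWord w) with hP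
  set Q : Wd B → ℝ := fun w => PY q a (toWord w) with hQ
  have hrx : ∀ g : List Bool → ℝ, ∑ k : Fin (4*a+3) → Bool, patternProb q k * g (trace x k)
      = ∑ w : Wd B, P w * g (bits (toWord w)) := by
    intro g
    rw [sum_pattern, hx, ← (describes_PX q a).2 g]
    exact (E_eq_sum B (fun w => PX q a w * g (bits w))).symm
  have hry : ∀ g : List Bool → ℝ, ∑ k : Fin (4*a+3) → Bool, patternProb q k * g (trace y k)
      = ∑ w : Wd B, Q w * g (bits (toWord w)) := by
    intro g
    rw [sum_pattern, hy, ← (describes_PY q a).2 g]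
    exact (E_eq_sum B (fun w => PY q a w * g (bits w))).symm
  have hP1 : ∑ w, P w = 1 := by
    have := hrx (fun _ => 1)
    simp only [mul_one] at this
    rw [← this, sum_patternProb]
  have hQ1 : ∑ w, Q w = 1 := by
    have := hry (fun _ => 1)
    simp only [mul_one] at this
    rw [← this, sum_patternProb]
  have hP0 : ∀ w, 0 ≤ P w := fun w => PX_nonneg q h0.le h1.le a _
  have hQ0 : ∀ w, 0 ≤ Q w := fun w => PY_nonneg q h0.le h1.le a _
  have key := two_point P Q hP0 hQ0 hP1 hQ1 m (fun w => e.prob (fun j => bits (toWord (w j))) x)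
    (fun w => e.prob_nonneg _ _) (fun w => prob_le_one e _ _)
  have s1 : ∑ w : Fin m → Wd B, (∏ j, P (w j)) * e.prob (fun j => bits (toWord (w j))) x
      = e.success q x := by
    unfold Estimator.success
    exact (pi_expect (fun k : Fin (4*a+3) → Bool => patternProb q k) (fun k => trace x k) P
      (fun w => bits (toWord w)) hrx m (fun t => e.prob t x)).symm
  have s2 : ∑ w : Fin m → Wd B, (∏ j, Q (w j)) * e.prob (fun j => bits (toWord (w j))) x
      = ∑ k : Fin m → Fin (4*a+3) → Bool, (∏ j, patternProb q (k j)) * e.prob (fun j => trace y (k j)) x := by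
    exact (pi_expect (fun k : Fin (4*a+3) → Bool => patternProb q k) (fun k => trace y k) Q
      (fun w => bits (toWord w)) hry m (fun t => e.prob t x)).symm
  have s3 : ∑ k : Fin m → Fin (4*a+3) → Bool, (∏ j, patternProb q (k j)) * e.prob (fun j => trace y (k j)) x
      ≤ 1/3 := by
    have hsum : ∑ k : Fin m → Fin (4*a+3) → Bool, (∏ j, patternProb q (k j)) = 1 := by
      rw [sum_prod_pow, sum_patternProb, one_pow]
    have hy2 := he y
    unfold Estimator.success at hy2
    have : ∑ k : Fin m → Fin (4*a+3) → Bool, (∏ j, patternProb q (k j)) * e.prob (fun j => trace y (k j)) x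
        + ∑ k : Fin m → Fin (4*a+3) → Bool, (∏ j, patternProb q (k j)) * e.prob (fun j => trace y (k j)) y
        ≤ ∑ k : Fin m → Fin (4*a+3) → Bool, (∏ j, patternProb q (k j)) := by
      rw [← Finset.sum_add_distrib]
      apply Finset.sum_le_sum
      intro k _
      rw [← mul_add]
      have h3 := prob_add_le_one e (fun j => trace y (k j)) x y hxy
      have h4 : 0 ≤ ∏ j, patternProb q (k j) :=
        Finset.prod_nonneg (fun j _ => patternProb_nonneg q h0.le h1.le _)
      nlinarith
    rw [hsum] at this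
    linarith
  rw [s1, s2] at key
  have hx2 := he x
  have hdiff : (1/9 : ℝ) ≤ (e.success q x - ∑ k : Fin m → Fin (4*a+3) → Bool,
      (∏ j, patternProb q (k j)) * e.prob (fun j => trace y (k j)) x)^2 := by
    nlinarith
  set BC := ∑ w, √(P w) * √(Q w) with hBC
  have hH : ∑ w : Wd B, (√(P w) - √(Q w))^2 = 2 - 2*BC := by
    have : ∑ w : Wd B, (√(P w) - √(Q w))^2 = ∑ w, P w + ∑ w, Q w - 2 * BC := by
      rw [hBC, Finset.mul_sum, ← Finset.sum_add_distrib, ← Finset.sum_sub_distrib]
      apply Finset.sum_congr rfl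
      intro w _
      have e1 := Real.sq_sqrt (hP0 w)
      have e2 := Real.sq_sqrt (hQ0 w)
      nlinarith
    rw [this, hP1, hQ1]; ring
  have hbound := hellinger_bound q h0 h1 a
  have hbound' : 2 - 2*BC ≤ 4 / (q^7 * (((a+1 : ℕ) : ℝ) * √((a+1 : ℕ) : ℝ))) + 2 * (1-q^2)^(2*a+1) := by
    rw [← hH]; exact hbound
  have hBC0 : 0 ≤ BC := Finset.sum_nonneg (fun w _ => by positivity)
  have hBern : 1 + ((2*m : ℕ) : ℝ) * (BC - 1) ≤ (1 + (BC - 1))^(2*m) := by
    apply one_add_mul_le_pow
    linarith
  have hpow : (BC^m)^2 = (1 + (BC-1))^(2*m) := by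
    rw [← pow_mul]
    congr 1
    · ring
    · ring
  rw [hpow] at key
  have hfin : 1/9 ≤ ((2*m : ℕ) : ℝ) * (1 - BC) := by
    have := hdiff.trans key
    linarith
  push_cast at hfin
  have hm0 : (0:ℝ) ≤ m := Nat.cast_nonneg m
  nlinarith [mul_le_mul_of_nonneg_left hbound' hm0]

lemma rec_of_succ (q : ℝ) (h0 : 0 ≤ q) (h1 : q ≤ 1) (n m : ℕ) (h : Rec q (n+1) m) :
    Rec q n m := by
  obtain ⟨e, he⟩ := h
  classical
  set sw : Bool → ℝ := fun b => if b then 1 - q else q with hsw
  have hsw0 : ∀ b, 0 ≤ sw b := by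
    intro b
    rw [hsw]
    simp only
    split_ifs
    · linarith
    · exact h0
  have hsw1 : ∑ b : Bool, sw b = 1 := by
    rw [Fintype.sum_bool]
    simp [hsw]
  let pre : Bool → List Bool := fun b => if b then [false] else []
  let e' : Estimator m n :=
    { prob := fun t x => ∑ s : Fin m → Bool, (∏ j, sw (s j)) *
        ∑ b : Bool, e.prob (fun j => pre (s j) ++ t j) (Fin.cons b x)
      prob_nonneg := by
        intro t x
        apply Finset.sum_nonneg
        intro s _
        apply mul_nonneg (Finset.prod_nonneg (fun j _ => hsw0 _))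
        exact Finset.sum_nonneg (fun b _ => e.prob_nonneg _ _)
      prob_sum := by
        intro t
        rw [Finset.sum_comm]
        have : ∀ s : Fin m → Bool, ∑ x : Fin n → Bool, (∏ j, sw (s j)) *
            ∑ b : Bool, e.prob (fun j => pre (s j) ++ t j) (Fin.cons b x) = ∏ j, sw (s j) := by
          intro s
          rw [← Finset.mul_sum]
          have h2 : ∑ x : Fin n → Bool, ∑ b : Bool, e.prob (fun j => pre (s j) ++ t j) (Fin.cons b x)
              = 1 := by
            rw [← e.prob_sum (fun j => pre (s j) ++ t j)]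
            rw [← (Fin.consEquiv (fun _ : Fin (n+1) => Bool)).sum_comp, Fintype.sum_prod_type]
            rw [Finset.sum_comm]
            rfl
          rw [h2, mul_one]
        simp only [this]
        rw [sum_prod_pow, hsw1, one_pow] }
  refine ⟨e', ?_⟩
  intro x
  refine (he (Fin.cons false x)).trans ?_
  -- describe the traces of `false :: x`
  have hr : ∀ g : List Bool → ℝ, ∑ k : Fin (n+1) → Bool, patternProb q k * g (trace (Fin.cons false x) k)
      = ∑ w : Bool × (Fin n → Bool), (sw w.1 * patternProb q w.2) * g (pre w.1 ++ trace x w.2) := by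
    intro g
    rw [sum_pattern, List.ofFn_succ]
    simp only [tr, Fin.cons_zero, Fin.cons_succ]
    rw [← sum_pattern, ← sum_pattern, Fintype.sum_prod_type, Fintype.sum_bool, Finset.mul_sum,
      Finset.mul_sum]
    congr 1
    · apply Finset.sum_congr rfl
      intro k _
      simp [hsw, pre]
      ring
    · apply Finset.sum_congr rfl
      intro k _
      simp [hsw, pre]
      ring
  have hpi := pi_expect (fun k : Fin (n+1) → Bool => patternProb q k) (fun k => trace (Fin.cons false x) k)
    (fun w : Bool × (Fin n → Bool) => sw w.1 * patternProb q w.2) (fun w => pre w.1 ++ trace x w.2)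
    hr m (fun t => e.prob t (Fin.cons false x))
  have hs : e.success q (Fin.cons false x) = ∑ k : Fin m → Fin (n+1) → Bool,
      (∏ j, patternProb q (k j)) * e.prob (fun j => trace (Fin.cons false x) (k j)) (Fin.cons false x) := rfl
  rw [hs, hpi]
  rw [← (Equiv.arrowProdEquivProdArrow (Fin m) (fun _ => Bool) (fun _ => Fin n → Bool)).symm.sum_comp,
    Fintype.sum_prod_type, Finset.sum_comm]
  unfold Estimator.success
  apply Finset.sum_le_sum
  intro k _
  simp only [e']
  rw [Finset.mul_sum]
  apply Finset.sum_le_sum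
  intro s _
  simp only [Equiv.arrowProdEquivProdArrow, Equiv.coe_fn_symm_mk]
  rw [Finset.prod_mul_distrib]
  have hpk : 0 ≤ ∏ j, patternProb q (k j) :=
    Finset.prod_nonneg (fun j _ => patternProb_nonneg q h0 h1 _)
  have hps : 0 ≤ ∏ j, sw (s j) := Finset.prod_nonneg (fun j _ => hsw0 _)
  have hle : e.prob (fun j => pre (s j) ++ trace x (k j)) (Fin.cons false x)
      ≤ ∑ b : Bool, e.prob (fun j => pre (s j) ++ trace x (k j)) (Fin.cons b x) := by
    rw [Fintype.sum_bool]
    have := e.prob_nonneg (fun j => pre (s j) ++ trace x (k j)) (Fin.cons true x)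
    linarith
  calc (∏ j, sw (s j)) * (∏ j, patternProb q (k j)) *
        e.prob (fun j => pre (s j) ++ trace x (k j)) (Fin.cons false x)
      ≤ (∏ j, sw (s j)) * (∏ j, patternProb q (k j)) *
        ∑ b : Bool, e.prob (fun j => pre (s j) ++ trace x (k j)) (Fin.cons b x) :=
        mul_le_mul_of_nonneg_left hle (mul_nonneg hps hpk)
    _ = _ := by ring

lemma rec_of_le (q : ℝ) (h0 : 0 ≤ q) (h1 : q ≤ 1) (n n' m : ℕ) (hn : n' ≤ n) (h : Rec q n m) :
    Rec q n' m := by
  induction n, hn using Nat.le_induction with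
  | base => exact h
  | succ n _ ih => exact ih (rec_of_succ q h0 h1 n m h)

end Vale.Agent.P321
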