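import Mathlib
import Vale.Agent.P321.Reconstruct

namespace Vale.Agent.P321

open Finset

lemma trace_length_le {n : ℕ} (x k : Fin n → Bool) (h : (trace x k).length = n) :
    k = fun _ => true := by
  unfold trace at h
  rw [List.length_map] at h
  have h2 : (List.finRange n).filter (fun i => k i) = List.finRange n := by
    apply List.Sublist.eq_of_length
    · exact List.filter_sublist
    · rw [h]; simp
  rw [List.filter_eq_self] at h2
  funext i
  exact h2 i (List.mem_finRange i)

lemma trace_full {n : ℕ} (x : Fin n → Bool) : trace x (fun _ => true) = List.ofFn x := by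
  unfold trace
  simp [List.ofFn_eq_map]

lemma patternProb_full (q : ℝ) (n : ℕ) : patternProb q (fun _ : Fin n => true) = (1-q)^n := by
  simp [patternProb]

/-- some number of traces suffices -/
lemma exists_rec (q : ℝ) (h0 : 0 < q) (h1 : q < 1) (n : ℕ) : ∃ m, Rec q n m := by
  classical
  have hp : 0 < (1-q)^n := pow_pos (by linarith) n
  have hp1 : (1-q)^n ≤ 1 := pow_le_one₀ (by linarith) (by linarith)
  obtain ⟨m, hm⟩ : ∃ m : ℕ, (1 - (1-q)^n)^m < 1/3 :=
    exists_pow_lt_of_lt_one (by norm_num) (by linarith)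
  refine ⟨m, ?_⟩
  -- the deterministic decoder
  let dec : (Fin m → List Bool) → (Fin n → Bool) := fun t =>
    if h : ∃ j, (t j).length = n then
      fun i => (t h.choose).get (i.cast h.choose_spec.symm)
    else fun _ => false
  let e : Estimator m n :=
    { prob := fun t x => if x = dec t then 1 else 0
      prob_nonneg := by intro t x; split_ifs <;> norm_num
      prob_sum := by intro t; simp }
  refine ⟨e, ?_⟩
  intro x
  have hdec : ∀ k : Fin m → Fin n → Bool, (∃ j, k j = fun _ => true) →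
      dec (fun j => trace x (k j)) = x := by
    intro k ⟨j, hj⟩
    have hex : ∃ j, (trace x (k j)).length = n := by
      refine ⟨j, ?_⟩
      rw [hj, trace_full]; simp
    have hch := hex.choose_spec
    have hk := trace_length_le x (k hex.choose) hch
    have hL : trace x (k hex.choose) = List.ofFn x := by rw [hk, trace_full]
    simp only [dec]
    rw [dif_pos hex]
    funext i
    simp only [List.get_eq_getElem, hL]
    simp
  have hlow : ∀ k : Fin m → Fin n → Bool,
      1 - ∏ j, (if k j = (fun _ => true) then (0:ℝ) else 1) ≤ e.prob (fun j => trace x (k j)) x := by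
    intro k
    by_cases hk : ∃ j, k j = fun _ => true
    · have := hdec k hk
      obtain ⟨j, hj⟩ := hk
      have hz : ∏ j, (if k j = (fun _ => true) then (0:ℝ) else 1) = 0 := by
        apply Finset.prod_eq_zero (Finset.mem_univ j)
        simp [hj]
      rw [hz]
      simp only [e]
      rw [this]
      simp
    · have hz : ∏ j, (if k j = (fun _ => true) then (0:ℝ) else 1) = 1 := by
        apply Finset.prod_eq_one
        intro j _
        rw [if_neg]
        intro hj
        exact hk ⟨j, hj⟩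
      rw [hz]
      simp only [sub_self]
      exact e.prob_nonneg _ _
  have hmain : 1 - (1 - (1-q)^n)^m ≤ e.success q x := by
    unfold Estimator.success
    calc 1 - (1 - (1-q)^n)^m
        = ∑ k : Fin m → Fin n → Bool, (∏ j, patternProb q (k j)) *
            (1 - ∏ j, (if k j = (fun _ => true) then (0:ℝ) else 1)) := by
          simp only [mul_sub, mul_one]
          rw [Finset.sum_sub_distrib, sum_prod_pow, sum_patternProb, one_pow]
          simp only [← Finset.prod_mul_distrib]
          rw [sum_prod_pow m (fun k : Fin n → Bool => patternProb q k * (if k = (fun _ => true) then (0:ℝ) else 1))]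
          congr 2
          have : ∀ k : Fin n → Bool, patternProb q k * (if k = (fun _ => true) then (0:ℝ) else 1)
              = patternProb q k - (if k = (fun _ => true) then patternProb q k else 0) := by
            intro k
            split_ifs <;> ring
          simp only [this]
          rw [Finset.sum_sub_distrib, sum_patternProb]
          simp [patternProb_full]
      _ ≤ _ := by
          apply Finset.sum_le_sum
          intro k _
          apply mul_le_mul_of_nonneg_left (hlow k)
          exact Finset.prod_nonneg (fun j _ => patternProb_nonneg q h0.le h1.le _)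
  linarith

lemma rec_sampleComplexity (q : ℝ) (h0 : 0 < q) (h1 : q < 1) (n : ℕ) :
    Rec q n (sampleComplexity q n) :=
  Nat.sInf_mem (s := {m : ℕ | ∃ e : Estimator m n, ∀ x, 2 / 3 ≤ e.success q x})
    (exists_rec q h0 h1 n)

lemma sampleComplexity_pos (q : ℝ) (h0 : 0 < q) (h1 : q < 1) (n : ℕ) (hn : 1 ≤ n) :
    1 ≤ sampleComplexity q n := by
  by_contra hcon
  have hz : sampleComplexity q n = 0 := by omega
  have h := rec_sampleComplexity q h0 h1 n
  rw [hz] at h
  have h' := rec_of_le q h0.le h1.le n 1 0 hn h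
  obtain ⟨e, he⟩ := h'
  have hx := he (fun _ => false)
  have hy := he (fun _ => true)
  unfold Estimator.success at hx hy
  simp only [Finset.univ_unique, Finset.sum_singleton, Finset.univ_eq_empty, Finset.prod_empty,
    one_mul] at hx hy
  have hne : (fun _ : Fin 1 => false) ≠ (fun _ => true) := by
    intro h; have := congrFun h 0; simp at this
  have hall : ∀ s : Fin 0 → List Bool, s = (fun j => j.elim0) := by
    intro s; funext j; exact j.elim0
  rw [hall (fun j => trace _ _)] at hx hy
  have := prob_add_le_one e (fun j : Fin 0 => j.elim0) _ _ hne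
  linarith

lemma geometric_poly (r : ℝ) (h0 : 0 < r) (h1 : r < 1) :
    ∃ C : ℝ, 0 < C ∧ ∀ a : ℕ, r^(2*a+1) * ((((a+1 : ℕ) : ℝ)) * √((a+1 : ℕ) : ℝ)) ≤ C := by
  have ht := tendsto_pow_const_mul_const_pow_of_abs_lt_one 2 (show |r| < 1 by rw [abs_of_pos h0]; exact h1)
  obtain ⟨C, hC⟩ := ht.bddAbove_range
  have hC' : ∀ n : ℕ, (n:ℝ)^2 * r^n ≤ C := fun n => hC ⟨n, rfl⟩
  refine ⟨max C 1, by positivity, ?_⟩
  intro a
  have h2 := hC' (a+1)
  have hA1 : (1:ℝ) ≤ ((a+1 : ℕ) : ℝ) := by push_cast; linarith [Nat.cast_nonneg (α := ℝ) a]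
  set A : ℝ := ((a+1 : ℕ) : ℝ) with hA
  have hsA : √A ≤ A := by
    rw [Real.sqrt_le_left (by linarith)]
    nlinarith
  have hpow : r^(2*a+1) ≤ r^(a+1) := pow_le_pow_of_le_one h0.le h1.le (by omega)
  calc r^(2*a+1) * (A * √A) ≤ r^(a+1) * (A * A) := by
        apply mul_le_mul hpow _ (by positivity) (by positivity)
        exact mul_le_mul_of_nonneg_left hsA (by linarith)
    _ = A^2 * r^(a+1) := by ring
    _ ≤ C := h2
    _ ≤ max C 1 := le_max_left _ _

/-- lower bound along the special lengths -/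
lemma special_bound (q : ℝ) (h0 : 0 < q) (h1 : q < 1) :
    ∃ c : ℝ, 0 < c ∧ ∀ a m : ℕ, Rec q (4*a+3) m →
      c * ((((a+1 : ℕ) : ℝ)) * √((a+1 : ℕ) : ℝ)) ≤ m := by
  have hr0 : 0 < 1 - q^2 := by nlinarith
  have hr1 : 1 - q^2 < 1 := by nlinarith
  obtain ⟨C, hC, hCb⟩ := geometric_poly (1-q^2) hr0 hr1
  have hD : 0 < 9 * (4/q^7 + 2*C) := by positivity
  refine ⟨1 / (9 * (4/q^7 + 2*C)), by positivity, ?_⟩
  intro a m hrec
  have hs := separation q h0 h1 a m hrec
  have hb := hCb a
  set A : ℝ := ((a+1 : ℕ) : ℝ) with hA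
  have hA0 : 0 < A := by rw [hA]; positivity
  have hT : 0 < A * √A := by
    have := Real.sqrt_pos.mpr hA0
    positivity
  set T := A * √A with hTdef
  have h2 : 4 / (q^7 * T) + 2 * (1-q^2)^(2*a+1) ≤ (4/q^7 + 2*C) / T := by
    rw [le_div_iff₀ hT]
    have e1 : 4 / (q^7 * T) * T = 4/q^7 := by
      field_simp
    nlinarith
  have hm0 : (0:ℝ) ≤ m := Nat.cast_nonneg m
  have h3 : 1 ≤ 9 * m * ((4/q^7 + 2*C) / T) := by
    refine hs.trans ?_
    apply mul_le_mul_of_nonneg_left h2 (by positivity)
  have h4 : T ≤ 9 * m * (4/q^7 + 2*C) := by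
    have : 9 * (m:ℝ) * ((4/q^7 + 2*C) / T) = (9 * m * (4/q^7 + 2*C)) / T := by ring
    rw [this, le_div_iff₀ hT] at h3
    linarith
  rw [div_mul_eq_mul_div, one_mul, div_le_iff₀ hD]
  linarith

theorem main (q : ℝ) (h0 : 0 < q) (h1 : q < 1) :
    ∃ c : ℝ, 0 < c ∧ ∀ n : ℕ, 1 ≤ n → c * (n:ℝ)^(3/2 : ℝ) ≤ (sampleComplexity q n : ℝ) := by
  obtain ⟨c, hc, hcb⟩ := special_bound q h0 h1
  refine ⟨min (c / 64) (1/8), by positivity, ?_⟩
  intro n hn
  have hn0 : (0:ℝ) < n := by exact_mod_cast hn
  by_cases h3 : 3 ≤ n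
  · -- n ≥ 3
    obtain ⟨a, ha1, ha2⟩ : ∃ a : ℕ, 4*a+3 ≤ n ∧ n ≤ 4*a+6 := ⟨(n-3)/4, by omega, by omega⟩
    have hrec := rec_of_le q h0.le h1.le n (4*a+3) _ ha1 (rec_sampleComplexity q h0 h1 n)
    have hb := hcb a _ hrec
    have hA : (n:ℝ) ≤ 6 * ((a+1 : ℕ) : ℝ) := by
      have : n ≤ 6*(a+1) := by omega
      exact_mod_cast this
    set A : ℝ := ((a+1 : ℕ) : ℝ) with hAdef
    have hA0 : 0 < A := by rw [hAdef]; positivity
    have hpow : (n:ℝ)^(3/2 : ℝ) ≤ 16 * (A * √A) := by
      have e1 : A * √A = A^(3/2 : ℝ) := by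
        rw [Real.sqrt_eq_rpow, show (3/2 : ℝ) = 1 + 1/2 by norm_num, Real.rpow_add hA0, Real.rpow_one]
      have e2 : (6*A)^(3/2 : ℝ) ≤ 16 * A^(3/2 : ℝ) := by
        rw [Real.mul_rpow (by norm_num) hA0.le]
        apply mul_le_mul_of_nonneg_right _ (by positivity)
        have : (6:ℝ)^(3/2 : ℝ) = 6 * √6 := by
          rw [Real.sqrt_eq_rpow, show (3/2 : ℝ) = 1 + 1/2 by norm_num,
            Real.rpow_add (by norm_num), Real.rpow_one]
        rw [this]
        have h6 : √6 ≤ 5/2 := by
          rw [Real.sqrt_le_left (by norm_num)]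
          norm_num
        linarith
      rw [e1]
      refine le_trans ?_ e2
      exact Real.rpow_le_rpow hn0.le hA (by norm_num)
    have hT : 0 < A * √A := by
      have := Real.sqrt_pos.mpr hA0
      positivity
    calc min (c/64) (1/8) * (n:ℝ)^(3/2 : ℝ) ≤ (c/64) * (16 * (A * √A)) := by
          apply mul_le_mul (min_le_left _ _) hpow (by positivity) (by positivity)
      _ ≤ c * (A * √A) := by nlinarith
      _ ≤ _ := hb
  · -- n = 1, 2
    have hpos := sampleComplexity_pos q h0 h1 n hn
    have hn2 : (n:ℝ) ≤ 2 := by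
      have : n ≤ 2 := by omega
      exact_mod_cast this
    have hpow : (n:ℝ)^(3/2 : ℝ) ≤ 4 := by
      calc (n:ℝ)^(3/2 : ℝ) ≤ (2:ℝ)^(3/2 : ℝ) := Real.rpow_le_rpow hn0.le hn2 (by norm_num)
        _ ≤ (2:ℝ)^(2 : ℝ) := Real.rpow_le_rpow_of_exponent_le (by norm_num) (by norm_num)
        _ = 4 := by norm_num
    have hpR : (1:ℝ) ≤ (sampleComplexity q n : ℝ) := by exact_mod_cast hpos
    have h5 : 0 ≤ (n:ℝ)^(3/2 : ℝ) := by positivity
    calc min (c/64) (1/8) * (n:ℝ)^(3/2 : ℝ) ≤ (1/8) * 4 := by
          apply mul_le_mul (min_le_right _ _) hpow h5 (by norm_num)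
      _ ≤ 1 := by norm_num
      _ ≤ _ := hpR

end Vale.Agent.P321
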